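import Mathlib

/-!
# P202 mixed characteristic: the ideal `(p - [t], p ^ n)` and valuations

Elementary facts about `W(R) / (p - [t], p ^ n)` for a perfect domain `R` of characteristic `p`,
and the bound on valuations of representatives.
-/

noncomputable section

namespace Vale.Agent.P202.Mixed.Extend

open WittVector

variable {p : ℕ} [hp : Fact p.Prime]

section Ring

variable {R S : Type*} [CommRing R] [CommRing S]

/-- The ideal of an untilt, at precision `n`. -/
def tiltI (t : R) (n : ℕ) : Ideal (WittVector p R) :=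
  Ideal.span {(p : WittVector p R) - (WittVector.teichmuller p) t, (p : WittVector p R) ^ n}

theorem mem_tiltI {t : R} {n : ℕ} {x : WittVector p R} :
    x ∈ tiltI t n ↔ ∃ a b, a * ((p : WittVector p R) - (WittVector.teichmuller p) t) + b * (p : WittVector p R) ^ n = x :=
  Ideal.mem_span_pair

theorem tiltI_anti (t : R) {m n : ℕ} (h : m ≤ n) :
    (tiltI t n : Ideal (WittVector p R)) ≤ tiltI t m := by
  intro x hx
  obtain ⟨a, b, rfl⟩ := mem_tiltI.1 hx
  obtain ⟨k, rfl⟩ := Nat.exists_eq_add_of_le h
  exact mem_tiltI.2 ⟨a, b * (p : WittVector p R) ^ k, by rw [pow_add]; ring⟩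

theorem mem_tiltI_zero (t : R) (x : WittVector p R) : x ∈ tiltI t 0 :=
  mem_tiltI.2 ⟨0, x, by rw [zero_mul, zero_add, pow_zero, mul_one]⟩

theorem c0_teich (a : R) : WittVector.constantCoeff ((WittVector.teichmuller p) a) = a :=
  teichmuller_coeff_zero p a

theorem c0_apply (x : WittVector p R) : WittVector.constantCoeff x = x.coeff 0 := rfl

theorem xi_mem (t : R) (n : ℕ) : ((p : WittVector p R) - (WittVector.teichmuller p) t) ∈ tiltI t n :=
  Ideal.subset_span (Set.mem_insert _ _)

theorem map_mem_tiltI (f : R →+* S) {t : R} {n : ℕ} {x : WittVector p R} (h : x ∈ tiltI t n) :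
    WittVector.map f x ∈ tiltI (f t) n := by
  obtain ⟨a, b, rfl⟩ := mem_tiltI.1 h
  exact mem_tiltI.2 ⟨WittVector.map f a, WittVector.map f b, by
    simp [map_teichmuller]⟩

theorem p_mul_sub_mem (t : R) (n : ℕ) (x : WittVector p R) :
    (p : WittVector p R) * x - (WittVector.teichmuller p) t * x ∈ tiltI t n := by
  rw [← sub_mul]
  exact Ideal.mul_mem_right _ _ (xi_mem t n)

theorem p_pow_sub_mem (t : R) (n i : ℕ) :
    (p : WittVector p R) ^ i - (WittVector.teichmuller p) (t ^ i) ∈ tiltI t n := by
  rw [map_pow]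
  obtain ⟨c, hc⟩ := sub_dvd_pow_sub_pow (p : WittVector p R) ((WittVector.teichmuller p) t) i
  rw [hc]
  exact Ideal.mul_mem_right _ _ (xi_mem t n)

variable [CharP R p] [PerfectRing R p]

theorem exists_eq_teichmuller_add (x : WittVector p R) :
    ∃ y, x = (WittVector.teichmuller p) (x.coeff 0) + (p : WittVector p R) * y := by
  have h : (x - (WittVector.teichmuller p) (x.coeff 0)).coeff 0 = 0 := by
    rw [← c0_apply, map_sub, c0_teich, c0_apply, sub_self]
  obtain ⟨y, hy⟩ := Ideal.mem_span_singleton'.1 ((mem_span_p_iff_coeff_zero_eq_zero _).2 h)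
  exact ⟨y, by rw [mul_comm, hy]; ring⟩

theorem p_mem_jacobson : (p : WittVector p R) ∈ (⊥ : Ideal (WittVector p R)).jacobson :=
  IsAdicComplete.le_jacobson_bot (Ideal.span {(p : WittVector p R)})
    (Ideal.mem_span_singleton_self _)

theorem isUnit_of_coeff_zero {x : WittVector p R} (h : IsUnit (x.coeff 0)) : IsUnit x := by
  obtain ⟨y, hy⟩ := exists_eq_teichmuller_add x
  obtain ⟨b, hb⟩ := h.map ((WittVector.teichmuller p) : R →* WittVector p R)
  have h1 := Ideal.mem_jacobson_bot.1 p_mem_jacobson (y * ((b⁻¹ : (WittVector p R)ˣ) : WittVector p R))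
  have e : x = (b : WittVector p R) + (p : WittVector p R) * y := by rw [hb]; exact hy
  rw [e]
  convert b.isUnit.mul h1 using 1
  rw [mul_add, mul_one, mul_left_comm, mul_left_comm (b : WittVector p R) y, Units.mul_inv, mul_one,
    add_comm]

variable [IsDomain R]

omit [PerfectRing R p] in
theorem p_mul_cancel {x y : WittVector p R} (h : (p : WittVector p R) * x = p * y) : x = y :=
  mul_left_cancel₀ (p_nonzero p R) h

omit [PerfectRing R p] [IsDomain R] in
theorem c0_expand {t : R} {n : ℕ} (a b : WittVector p R) :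
    WittVector.constantCoeff (a * ((p : WittVector p R) - (WittVector.teichmuller p) t) +
      b * (p : WittVector p R) ^ (n + 1)) = -(a.coeff 0 * t) := by
  rw [map_add, map_mul, map_sub, map_natCast, map_mul, map_pow, map_natCast, CharP.cast_eq_zero R p,
    zero_pow n.succ_ne_zero, mul_zero, add_zero, zero_sub, c0_teich, mul_neg, c0_apply]

/-- Multiplication by `p` is injective modulo `p - [t]`, with a loss of one step of precision. -/
theorem of_p_mul_mem {t : R} (ht : t ≠ 0) {n : ℕ} {x : WittVector p R}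
    (h : (p : WittVector p R) * x ∈ tiltI t (n + 1)) : x ∈ tiltI t n := by
  obtain ⟨a, b, hab⟩ := mem_tiltI.1 h
  have h0 := congrArg (WittVector.constantCoeff (R := R) (p := p)) hab
  rw [c0_expand, map_mul, map_natCast, CharP.cast_eq_zero R p, zero_mul, neg_eq_zero] at h0
  obtain ⟨a', rfl⟩ := Ideal.mem_span_singleton'.1
    ((mem_span_p_iff_coeff_zero_eq_zero _).2 ((mul_eq_zero.1 h0).resolve_right ht))
  refine mem_tiltI.2 ⟨a', b, ?_⟩
  refine p_mul_cancel (Eq.trans ?_ hab)
  ring

theorem of_p_pow_mul_mem {t : R} (ht : t ≠ 0) {n : ℕ} (i : ℕ) {x : WittVector p R}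
    (h : (p : WittVector p R) ^ i * x ∈ tiltI t (n + i)) : x ∈ tiltI t n := by
  induction i generalizing x with
  | zero => rwa [pow_zero, one_mul, Nat.add_zero] at h
  | succ i ih =>
    rw [pow_succ', mul_assoc] at h
    exact ih (of_p_mul_mem ht h)

/-- A Teichmüller element in the ideal is a multiple of the corresponding power. -/
theorem dvd_of_teichmuller_mem {t : R} (ht : t ≠ 0) (n : ℕ) {a : R} (h : (WittVector.teichmuller p) a ∈ tiltI t n) :
    t ^ n ∣ a := by
  induction n generalizing a with
  | zero => rw [pow_zero]; exact one_dvd a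
  | succ n ih =>
    obtain ⟨w, w', hw⟩ := mem_tiltI.1 h
    have h0 := congrArg (WittVector.constantCoeff (R := R) (p := p)) hw
    rw [c0_expand, c0_teich] at h0
    have e : a = t * -(w.coeff 0) := by rw [← h0]; ring
    rw [e] at h ⊢
    have h1 : (p : WittVector p R) * (WittVector.teichmuller p) (-(w.coeff 0)) ∈ tiltI t (n + 1) := by
      rw [map_mul] at h
      have := Ideal.add_mem _ h (p_mul_sub_mem t (n + 1) ((WittVector.teichmuller p) (-(w.coeff 0))))
      rwa [add_sub_cancel] at this
    rw [pow_succ']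
    exact mul_dvd_mul_left t (ih (of_p_mul_mem ht h1))

variable [IsDomain S] [CharP S p] [PerfectRing S p]

omit [IsDomain R] in
/-- The ideals agree along an injection along which divisibility by `t` descends. -/
theorem of_map_mem_tiltI (f : R →+* S) (hf : Function.Injective f) {t : R} (ht : t ≠ 0)
    (hd : ∀ a, f t ∣ f a → t ∣ a) (n : ℕ) {x : WittVector p R}
    (h : WittVector.map f x ∈ tiltI (f t) n) : x ∈ tiltI t n := by
  induction n generalizing x with
  | zero =>
    refine mem_tiltI.2 ⟨0, x, ?_⟩
    rw [zero_mul, zero_add, pow_zero, mul_one]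
  | succ n ih =>
    obtain ⟨a, b, hab⟩ := mem_tiltI.1 h
    have h0 := congrArg (WittVector.constantCoeff (R := S) (p := p)) hab
    rw [c0_expand, c0_apply, map_coeff] at h0
    obtain ⟨c, hc⟩ := hd (x.coeff 0) ⟨-(a.coeff 0), by rw [← h0, mul_neg, mul_comm]⟩
    have hx : (x + ((p : WittVector p R) - (WittVector.teichmuller p) t) * (WittVector.teichmuller p) c).coeff 0 = 0 := by
      rw [← c0_apply, map_add, map_mul, map_sub, map_natCast, CharP.cast_eq_zero R p, c0_teich,
        c0_teich, c0_apply, hc, zero_sub, neg_mul, add_neg_cancel]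
    obtain ⟨x1, hx1⟩ := Ideal.mem_span_singleton'.1 ((mem_span_p_iff_coeff_zero_eq_zero _).2 hx)
    have hxi := Ideal.mul_mem_right ((WittVector.teichmuller p) c) _ (xi_mem t (n + 1))
    have h1 : (p : WittVector p S) * WittVector.map f x1 ∈ tiltI (f t) (n + 1) := by
      have := Ideal.add_mem _ h (map_mem_tiltI f hxi)
      rwa [← map_add, ← hx1, map_mul, map_natCast, mul_comm] at this
    have ht' : f t ≠ 0 := fun h => ht (hf (by rw [h, map_zero]))
    obtain ⟨u, v, huv⟩ := mem_tiltI.1 (ih (of_p_mul_mem ht' h1))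
    refine mem_tiltI.2 ⟨u * (p : WittVector p R) - (WittVector.teichmuller p) c, v, ?_⟩
    rw [eq_sub_of_add_eq hx1.symm, ← huv, pow_succ]
    ring

end Ring

section Subring

variable {K : Type*} [Field K]

/-- A subring containing the `p`-th roots of its elements is perfect. -/
theorem perfectRing_of_roots [CharP K p] (T : Subring K) (h : ∀ a ∈ T, ∃ b ∈ T, b ^ p = a) :
    PerfectRing T p := by
  refine PerfectRing.ofSurjective T p fun a => ?_
  obtain ⟨b, hb, hba⟩ := h a a.2
  exact ⟨⟨b, hb⟩, Subtype.ext (by simpa [frobenius_def] using hba)⟩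

variable [CharP K p] [PerfectRing K p]

theorem exists_root (a : K) (i : ℕ) : ∃ b : K, b ^ p ^ i = a :=
  ⟨(iterateFrobeniusEquiv K p i).symm a, by
    rw [← iterateFrobeniusEquiv_def, RingEquiv.apply_symm_apply]⟩

instance valuationSubring_charP (V : ValuationSubring K) : CharP V p :=
  (RingHom.charP_iff (V.subtype) Subtype.val_injective p).2 inferInstance

instance valuationSubring_perfect (V : ValuationSubring K) : PerfectRing V p := by
  refine PerfectRing.ofSurjective V p fun a => ?_
  obtain ⟨b, hb⟩ := exists_root (p := p) (a : K) 1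
  rw [pow_one] at hb
  refine ⟨⟨b, ?_⟩, Subtype.ext (by simpa [frobenius_def] using hb)⟩
  have ha : V.valuation (a : K) ≤ 1 := V.valuation_le_one a
  rw [← hb, map_pow] at ha
  exact (V.valuation_le_one_iff b).1 ((pow_le_one_iff hp.out.ne_zero).1 ha)

variable {T : Subring K}

/-- The inclusion of a subring in a valuation subring. -/
def toVal (V : ValuationSubring K) (h : T ≤ V.toSubring) : T →+* V :=
  Subring.inclusion h

theorem exists_mul_eq (V : ValuationSubring K) {a b : V}
    (h : V.valuation (b : K) < V.valuation (a : K)) :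
    ∃ c : V, b = a * c ∧ c ∈ IsLocalRing.maximalIdeal V := by
  have ha : (a : K) ≠ 0 := fun h0 => not_lt_zero (a := V.valuation (b : K)) (by rw [h0, map_zero] at h; exact h)
  have hc : V.valuation ((b : K) / a) < 1 := by
    rw [map_div₀]
    exact (div_lt_one₀ ((Valuation.pos_iff _).2 ha)).2 h
  refine ⟨⟨(b : K) / a, (V.valuation_le_one_iff _).1 hc.le⟩, Subtype.ext ?_, ?_⟩
  · change (b : K) = a * (b / a)
    field_simp
  · exact (V.valuation_lt_one_iff ⟨(b : K) / a, _⟩).2 hc

theorem valuation_le_of_unit_mul (V : ValuationSubring K) {t a : V} (ht : t ≠ 0) {n : ℕ}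
    {z : WittVector p V} (hz : IsUnit z) (h : (WittVector.teichmuller p) a * z ∈ tiltI t n) :
    V.valuation (a : K) ≤ V.valuation (t : K) ^ n := by
  obtain ⟨z, rfl⟩ := hz
  have h1 := Ideal.mul_mem_right (↑z⁻¹ : WittVector p V) _ h
  rw [mul_assoc, Units.mul_inv, mul_one] at h1
  obtain ⟨c, rfl⟩ := dvd_of_teichmuller_mem ht n h1
  rw [← map_pow]
  push_cast
  rw [map_mul]
  exact mul_le_of_le_one_right' (V.valuation_le_one c)

/-- A representative congruent to a multiple of `[c]` is no larger than `c`, up to precision. -/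
theorem valuation_bound (V : ValuationSubring K) {t u c : V} (ht : t ≠ 0) {n : ℕ}
    (w : WittVector p V) (h : (WittVector.teichmuller p) u - (WittVector.teichmuller p) c * w ∈ tiltI t n) :
    V.valuation (u : K) ≤ V.valuation (c : K) ∨
      V.valuation (u : K) ≤ V.valuation (t : K) ^ n := by
  by_cases hlt : V.valuation (u : K) ≤ V.valuation (c : K)
  · exact .inl hlt
  obtain ⟨a, rfl, ha⟩ := exists_mul_eq V (not_le.1 hlt)
  refine .inr (valuation_le_of_unit_mul V ht (z := 1 - (WittVector.teichmuller p) a * w) ?_ ?_)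
  · refine isUnit_of_coeff_zero ?_
    rw [← c0_apply, map_sub, map_one, map_mul, c0_teich]
    exact IsLocalRing.isUnit_one_sub_self_of_mem_nonunits _
      ((IsLocalRing.mem_maximalIdeal _).1 (Ideal.mul_mem_right _ _ ha))
  · rwa [map_mul, mul_assoc, ← mul_one ((WittVector.teichmuller p) u), mul_assoc, one_mul, ← mul_sub] at h

end Subring

end Vale.Agent.P202.Mixed.Extend
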