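import Vale.Agent.P202.Mixed.Extend.Value
import Vale.Agent.P202.Mixed.Defs

/-!
# P202 mixed characteristic: bounds on the values of an untilt and of its pole

A model bounds the values of `t` and `t ^ b * γ` above (too many monomials would be independent
otherwise), and its reduction bounds the value of `t` below by nearly `1`.
-/

noncomputable section

namespace Vale.Agent.P202.Mixed.Extend

open WittVector IsLocalRing

universe u

variable {p : ℕ} [Fact p.Prime] {k : Type u} [_root_.Field k] [CharP k p] [PerfectRing k p] {d : ℕ}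

theorem toV_injective (w : Field.OrdVal k d) : Function.Injective (toV w) := fun _ _ h =>
  Subtype.ext (congrArg (fun z : ordRingOf w => (z : Field.Kbar k d)) h)

/-- The finitely valued elements. -/
theorem exists_real (w : Field.OrdVal k d) {a : Field.T0 k d} (ha : a ≠ 0) :
    ∃ r : ℝ, 0 ≤ r ∧ w.v (a : Field.Kbar k d) = (r : WithTop ℝ) := by
  obtain ⟨r, hr⟩ := WithTop.ne_top_iff_exists.1
    ((AddValuation.ne_top_iff w.v).2 fun h => ha (Subtype.ext h))
  have := w.nonneg a
  rw [← hr, WithTop.coe_nonneg] at this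
  exact ⟨r, this, hr.symm⟩

omit [PerfectRing k p] in
/-- Representatives congruent to a multiple of `[b]` have value at least that of `b`. -/
theorem value_bound (w : Field.OrdVal k d) {N : ℕ} {t : Field.T0 k d} (ht : t ≠ 0)
    {a c : ordRingOf w} {z : WittVector p (ordRingOf w)}
    (h : (WittVector.teichmuller p) a - (WittVector.teichmuller p) c * z ∈ tiltI (toV w t) N) :
    w.v (c : Field.Kbar k d) ≤ w.v (a : Field.Kbar k d) ∨
      N • w.at t ≤ w.v (a : Field.Kbar k d) := by
  have htV : toV w t ≠ 0 := fun h => ht (toV_injective w (h.trans (map_zero _).symm))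
  rcases valuation_bound (ordRingOf w) htV z h with h1 | h1
  · exact .inl (le_of_valuation_le h1)
  · refine .inr ?_
    rw [← map_pow] at h1
    have := le_of_valuation_le h1
    rwa [coe_toV, w.v.map_pow] at this

variable (E : Evaluation p k d)

/-- Series that are small at `w`, up to level `J`. -/
def smallIdeal (w : Field.OrdVal k d) (t : Field.T0 k d) (N J : ℕ) :
    Ideal (MvPowerSeries (Fin (d + 1)) (WittVector p k)) :=
  (tiltI (toV w t) N ⊔ Ideal.span {(WittVector.teichmuller p) (x0 w ^ J)}).comap (E.inV w)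

omit [PerfectRing k p] in
/-- The monomials of degree below the level are independent modulo the small series. -/
theorem monomial_not_mem (w : Field.OrdVal k d) {t : Field.T0 k d} (ht : t ≠ 0) {N J : ℕ}
    (hN : ((J : ℝ) : WithTop ℝ) ≤ N • w.at t) {α : Fin (d + 1) →₀ ℕ} (hα : α.degree < J)
    (S : Finset (Fin (d + 1) →₀ ℕ)) (hS : ∀ β ∈ S, α.degree ≤ β.degree) (hαS : α ∉ S) :
    MvPowerSeries.monomial α (1 : WittVector p k) ∉ smallIdeal E w t N J ⊔
      Ideal.span ((fun β => MvPowerSeries.monomial β (1 : WittVector p k)) '' (S : Set _)) := by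
  classical
  set i := α.degree
  intro hmem
  obtain ⟨u, hu, v, hv, huv⟩ := Submodule.mem_sup.1 hmem
  rw [show ((fun β => MvPowerSeries.monomial β (1 : WittVector p k)) '' (S : Set _)) =
      Set.range (fun β : S => MvPowerSeries.monomial (β : Fin (d + 1) →₀ ℕ) (1 : WittVector p k))
      from Set.image_eq_range _ _] at hv
  obtain ⟨a, ha⟩ := (Submodule.mem_span_range_iff_exists_fun _).1 hv
  have hx : ∀ β : Fin (d + 1) →₀ ℕ, i ≤ β.degree →
      ∃ y, E.inV w (MvPowerSeries.monomial β 1) = (WittVector.teichmuller p) (x0 w ^ i) * y ∧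
        ((y.coeff 0 : ordRingOf w) : Field.Kbar k d) * ((x0 w ^ i : ordRingOf w) : Field.Kbar k d) =
          algebraMap (Field.Ser k d) (Field.Kbar k d) (MvPowerSeries.monomial β 1) := fun β hβ => by
    have hm : MvPowerSeries.monomial β (1 : WittVector p k) ∈
        Ideal.span (Set.range (MvPowerSeries.X :
          Fin (d + 1) → MvPowerSeries (Fin (d + 1)) (WittVector p k))) ^ i := by
      refine Ideal.pow_le_pow_right hβ ?_
      rw [MvPowerSeries.monomial_one_eq, Finsupp.prod, Finsupp.degree_apply,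
        ← Finset.prod_pow_eq_pow_sum]
      exact Ideal.prod_mem_prod fun a _ => Ideal.pow_mem_pow (Ideal.subset_span (Set.mem_range_self a)) _
    obtain ⟨y, hy⟩ := Ideal.mem_span_singleton.1 (map_spanX_le E w i (Ideal.mem_map_of_mem _ hm))
    refine ⟨y, hy, ?_⟩
    have h2 := congrArg (fun y : WittVector p (ordRingOf w) => ((y.coeff 0 : ordRingOf w) :
      Field.Kbar k d)) hy
    simp only [Evaluation.inV, RingHom.comp_apply, WittVector.map_coeff, coe_toV,
      E.coeff_zero, WittVector.mul_coeff_zero, teichmuller_coeff_zero, MulMemClass.coe_mul] at h2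
    rw [mul_comm, ← h2, Subalgebra.coe_algebraMap]
    congr 1
    refine MvPowerSeries.ext fun e => ?_
    rw [MvPowerSeries.coeff_map, MvPowerSeries.coeff_monomial, MvPowerSeries.coeff_monomial]
    split_ifs <;> simp
  obtain ⟨yα, hyα, hyα0⟩ := hx α le_rfl
  choose y hy hy0 using fun β : S => hx β (hS β β.2)
  set f : Field.Ser k d := MvPowerSeries.monomial α 1 -
    ∑ β : S, MvPowerSeries.map WittVector.constantCoeff (a β) * MvPowerSeries.monomial (β : Fin (d + 1) →₀ ℕ) 1
  set z := yα - ∑ β : S, E.inV w (a β) * y β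
  have hzf : ((z.coeff 0 : ordRingOf w) : Field.Kbar k d) *
      ((x0 w ^ i : ordRingOf w) : Field.Kbar k d) =
      algebraMap (Field.Ser k d) (Field.Kbar k d) f := by
    simp only [z, f, ← c0_apply, map_sub, map_sum, map_mul, AddSubgroupClass.coe_sub,
      AddSubmonoidClass.coe_finsetSum, MulMemClass.coe_mul, sub_mul, Finset.sum_mul]
    rw [c0_apply, hyα0]
    refine congrArg _ (Finset.sum_congr rfl fun β _ => ?_)
    rw [c0_apply, c0_apply, mul_assoc, hy0]
    congr 1
    rw [Evaluation.inV, RingHom.comp_apply, WittVector.map_coeff, coe_toV, E.coeff_zero,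
      Subalgebra.coe_algebraMap]
  have hcoeff : MvPowerSeries.coeff α f = 1 := by
    simp only [f, map_sub, map_sum]
    rw [MvPowerSeries.coeff_monomial_same, Finset.sum_eq_zero fun β _ => ?_, sub_zero]
    rw [MvPowerSeries.coeff_mul_monomial, if_neg]
    intro hle
    refine hαS ?_
    have h1 : α.degree = (α - (β : Fin (d + 1) →₀ ℕ)).degree + (β : Fin (d + 1) →₀ ℕ).degree := by
      rw [← map_add, tsub_add_cancel_of_le hle]
    have h2 := hS β β.2
    have h3 : α - (β : Fin (d + 1) →₀ ℕ) = 0 := by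
      rw [← Finsupp.degree_eq_zero_iff]
      omega
    rw [← tsub_add_cancel_of_le hle, h3, zero_add]
    exact β.2
  have hord : f.order = (i : ℕ∞) := by
    refine le_antisymm (MvPowerSeries.order_le (by rw [hcoeff]; exact one_ne_zero)) ?_
    refine MvPowerSeries.nat_le_order fun e he => ?_
    simp only [f, map_sub, map_sum]
    rw [MvPowerSeries.coeff_monomial, if_neg (by rintro rfl; omega), Finset.sum_eq_zero fun β _ => ?_,
      sub_zero]
    rw [MvPowerSeries.coeff_mul_monomial, if_neg]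
    intro hle
    have h1 : e.degree = (e - (β : Fin (d + 1) →₀ ℕ)).degree + (β : Fin (d + 1) →₀ ℕ).degree := by
      rw [← map_add, tsub_add_cancel_of_le hle]
    have h2 := hS β β.2
    omega
  have hf0 : f ≠ 0 := fun h => by rw [h, map_zero] at hcoeff; exact zero_ne_one hcoeff
  have hzu : IsUnit z := by
    refine isUnit_of_coeff_zero (isUnit_of_value_zero ?_)
    have h1 := congrArg w.v hzf
    rw [w.v.map_mul, value_x0_pow, w.eq_ord f hf0, Field.ord, hord, ENat.toNat_natCast] at h1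
    obtain ⟨q, hq⟩ := WithTop.ne_top_iff_exists.1 (fun htop => by
      rw [htop, WithTop.top_add] at h1
      exact WithTop.coe_ne_top h1.symm :
        w.v ((z.coeff 0 : ordRingOf w) : Field.Kbar k d) ≠ ⊤)
    rw [← hq, ← WithTop.coe_add, WithTop.coe_eq_coe] at h1
    rw [← hq, ← WithTop.coe_zero, WithTop.coe_eq_coe]
    linarith
  have hphi : E.inV w u = (WittVector.teichmuller p) (x0 w ^ i) * z := by
    rw [eq_sub_of_add_eq huv, ← ha, map_sub, map_sum, hyα]
    simp only [z, smul_eq_mul, map_mul, mul_sub, Finset.mul_sum, hy]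
    exact congrArg _ (Finset.sum_congr rfl fun β _ => by ring)
  have hu' : E.inV w u ∈ tiltI (toV w t) N ⊔ Ideal.span {(WittVector.teichmuller p) (x0 w ^ J)} := hu
  rw [hphi] at hu'
  obtain ⟨m, hm, s, hs, hms⟩ := Submodule.mem_sup.1 hu'
  obtain ⟨s', rfl⟩ := Ideal.mem_span_singleton.1 hs
  obtain ⟨zu, hzu'⟩ := hzu
  have hkey : (WittVector.teichmuller p) (x0 w ^ i) - (WittVector.teichmuller p) (x0 w ^ J) * (s' * ↑zu⁻¹) ∈ tiltI (toV w t) N := by
    have e : (WittVector.teichmuller p) (x0 w ^ i) - (WittVector.teichmuller p) (x0 w ^ J) * (s' * ↑zu⁻¹) = m * ↑zu⁻¹ := by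
      rw [eq_sub_of_add_eq hms, ← hzu', sub_mul, mul_assoc, Units.mul_inv, mul_one, ← mul_assoc]
    rw [e]
    exact Ideal.mul_mem_right _ _ hm
  rcases value_bound w ht hkey with h1 | h1
  · rw [value_x0_pow, value_x0_pow] at h1
    have : J ≤ i := by exact_mod_cast h1
    omega
  · rw [value_x0_pow] at h1
    have h2 := le_trans hN h1
    have : J ≤ i := by exact_mod_cast h2
    omega

omit [PerfectRing k p] in
/-- The small series have colength at least the number of monomials below the level. -/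
theorem card_le_coheight (w : Field.OrdVal k d) {t : Field.T0 k d} (ht : t ≠ 0) {N J : ℕ}
    (hN : ((J : ℝ) : WithTop ℝ) ≤ N • w.at t) (S : Finset (Fin (d + 1) →₀ ℕ))
    (hS : ∀ β ∈ S, β.degree < J) :
    (S.card : ℕ∞) ≤ Order.coheight (smallIdeal E w t N J) := by
  classical
  suffices h : Order.coheight (smallIdeal E w t N J ⊔
      Ideal.span ((fun β => MvPowerSeries.monomial β (1 : WittVector p k)) '' (S : Set _))) + S.card ≤
        Order.coheight (smallIdeal E w t N J) from le_trans le_add_self h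
  induction S using Finset.strongInduction with
  | H S ih =>
    rcases S.eq_empty_or_nonempty with rfl | hne
    · simp
    obtain ⟨α, hα, hmin⟩ := S.exists_min_image (fun β => β.degree) hne
    have h1 := ih (S.erase α) (Finset.erase_ssubset hα) fun β hβ => hS β (Finset.mem_of_mem_erase hβ)
    have hlt : smallIdeal E w t N J ⊔ Ideal.span
          ((fun β => MvPowerSeries.monomial β (1 : WittVector p k)) '' ((S.erase α : Finset _) : Set _)) <
        smallIdeal E w t N J ⊔ Ideal.span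
          ((fun β => MvPowerSeries.monomial β (1 : WittVector p k)) '' (S : Set _)) := by
      refine lt_of_le_not_ge (sup_le_sup_left (Ideal.span_mono (Set.image_mono
        (Finset.coe_subset.2 (Finset.erase_subset α S)))) _) fun hle => ?_
      exact monomial_not_mem E w ht hN (hS α hα) (S.erase α)
        (fun β hβ => hmin β (Finset.mem_of_mem_erase hβ)) (Finset.notMem_erase α S)
        (hle (Ideal.mem_sup_right (Ideal.subset_span ⟨α, hα, rfl⟩)))
    refine le_trans ?_ h1
    rw [← Finset.card_erase_add_one hα, Nat.cast_add, Nat.cast_one, add_comm ((S.erase α).card : ℕ∞),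
      ← add_assoc]
    exact add_le_add (Order.coheight_add_one_le hlt) le_rfl

theorem exists_monomials (J : ℕ) : ∃ S : Finset (Fin (d + 1) →₀ ℕ),
    S.card = monCount (d + 1) J ∧ ∀ β ∈ S, β.degree < J := by
  classical
  refine ⟨(Finset.range J).biUnion fun j => Finset.finsuppAntidiag Finset.univ j, ?_, fun β hβ => ?_⟩
  · rw [Finset.card_biUnion, monCount]
    · refine Finset.sum_congr rfl fun j _ => ?_
      rw [Finset.card_finsuppAntidiag_nat_eq_multichoose, Finset.card_univ, Fintype.card_fin]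
    · intro i _ j _ hij
      rw [Function.onFun, Finset.disjoint_left]
      intro β h1 h2
      exact hij ((Finset.mem_finsuppAntidiag.1 h1).1.symm.trans (Finset.mem_finsuppAntidiag.1 h2).1)
  · obtain ⟨j, hj, hβj⟩ := Finset.mem_biUnion.1 hβ
    rw [Finsupp.degree_eq_sum]
    exact (Finset.mem_finsuppAntidiag.1 hβj).1.trans_lt (Finset.mem_range.1 hj)

variable {B : Type u} [CommRing B] [IsLocalRing B]
  [Algebra (MvPowerSeries (Fin (d + 1)) (WittVector p k)) B] {D : ℕ}
  (Mo : Model p B (C := WittVector p k) (d := d) D)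

theorem gbar_regular : ∃ e : ℕ, MvPowerSeries.coeff (Finsupp.single 0 e)
    (MvPowerSeries.map (WittVector.constantCoeff (p := p) (R := k)) Mo.g) ≠ 0 := by
  obtain ⟨e, he⟩ := Mo.g_regular
  refine ⟨e, fun h => he (Ideal.mem_span_singleton.1 ?_)⟩
  rw [WittVector.mem_span_p_iff_coeff_zero_eq_zero, ← c0_apply, ← MvPowerSeries.coeff_map]
  exact h

theorem gbar_ne_zero : MvPowerSeries.map (WittVector.constantCoeff (p := p) (R := k)) Mo.g ≠ 0 :=
  fun h => by obtain ⟨e, he⟩ := gbar_regular Mo; exact he (by rw [h, map_zero])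

omit [PerfectRing k p] in
theorem dvd_gbar {N : ℕ} (hN : 1 ≤ N) {t : Field.T0 k d} (hg : E.φ Mo.g ∈ tiltI t N) :
    t ∣ algebraMap (Field.Ser k d) (Field.T0 k d)
      (MvPowerSeries.map (WittVector.constantCoeff (p := p) (R := k)) Mo.g) := by
  obtain ⟨a, b, hab⟩ := mem_tiltI.1 hg
  obtain ⟨n, rfl⟩ : ∃ n, N = n + 1 := ⟨N - 1, by omega⟩
  have h := congrArg (WittVector.constantCoeff (R := Field.T0 k d) (p := p)) hab
  rw [c0_expand, c0_apply, E.coeff_zero] at h
  exact ⟨-(a.coeff 0), by rw [← h]; ring⟩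

theorem t_ne_zero {N : ℕ} (hN : 1 ≤ N) {t : Field.T0 k d} (hg : E.φ Mo.g ∈ tiltI t N) : t ≠ 0 := by
  rintro rfl
  have := zero_dvd_iff.1 (dvd_gbar E Mo hN hg)
  exact gbar_ne_zero Mo (Field.algebraMap_t0_injective k d (this.trans (map_zero _).symm))

/-- The value of `t` is at least `1 / D` and at most the order of the reduced equation. -/
theorem value_t {N : ℕ} (hN : D < N) {t : Field.T0 k d} (ht : ¬ IsUnit t)
    (hg : E.φ Mo.g ∈ tiltI t N) (w : Field.OrdVal k d) :
    0 < w.at t ∧ ((1 : ℝ) : WithTop ℝ) ≤ D • w.at t ∧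
      w.at t ≤ ((Field.ord k d (MvPowerSeries.map (WittVector.constantCoeff (p := p) (R := k)) Mo.g) :
        ℝ) : WithTop ℝ) := by
  have hpos : 0 < w.at t := w.pos_of_mem ((Field.not_isUnit_iff t).1 ht)
  have ht0 := t_ne_zero E Mo (by omega) hg
  refine ⟨hpos, ?_, ?_⟩
  · obtain ⟨c, hc⟩ := Mo.g_const
    have hsub : Mo.g - MvPowerSeries.C ((p : WittVector p k) ^ D * (c : WittVector p k)) ∈
        Ideal.span (Set.range (MvPowerSeries.X :
          Fin (d + 1) → MvPowerSeries (Fin (d + 1)) (WittVector p k))) := by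
      rw [← hc]; exact sub_C_constantCoeff_mem_span_X _
    obtain ⟨s, hs⟩ := Ideal.mem_span_singleton.1 (map_spanX_le E w 1
      (Ideal.mem_map_of_mem _ (by rw [pow_one]; exact hsub)))
    have hgV : E.inV w Mo.g ∈ tiltI (toV w t) N := map_mem_tiltI (toV w) hg
    obtain ⟨uc, huc⟩ := (c.isUnit.map MvPowerSeries.C).map (E.inV w)
    rw [map_sub, map_mul, map_pow, map_natCast, map_mul, map_pow, map_natCast, ← huc,
      pow_one] at hs
    have h1 := Ideal.mul_mem_right (↑uc⁻¹ : WittVector p (ordRingOf w)) _ hgV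
    rw [sub_eq_iff_eq_add.1 hs, add_mul, mul_assoc _ (↑uc : WittVector p (ordRingOf w)),
      Units.mul_inv, mul_one] at h1
    have h2 := Ideal.sub_mem _ h1 (p_pow_sub_mem (p := p) (toV w t) N D)
    have hkey : (WittVector.teichmuller p) (toV w t ^ D) - (WittVector.teichmuller p) (x0 w) * -(s * ↑uc⁻¹) ∈ tiltI (toV w t) N := by
      convert h2 using 1
      ring
    rcases value_bound w ht0 hkey with h3 | h3
    · rw [← pow_one (x0 w), value_x0_pow, SubmonoidClass.coe_pow, w.v.map_pow, coe_toV,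
        Nat.cast_one] at h3
      exact h3
    · exfalso
      rw [SubmonoidClass.coe_pow, w.v.map_pow, coe_toV] at h3
      obtain ⟨q, hq0, hq⟩ := exists_real w ht0
      rw [Field.OrdVal.at, hq, ← WithTop.coe_zero, WithTop.coe_lt_coe] at hpos
      rw [Field.OrdVal.at, hq, ← WithTop.coe_nsmul, ← WithTop.coe_nsmul, WithTop.coe_le_coe,
        nsmul_eq_mul, nsmul_eq_mul] at h3
      have : (D : ℝ) < N := by exact_mod_cast hN
      nlinarith
  · obtain ⟨q, hq⟩ := dvd_gbar E Mo (by omega) hg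
    have h := w.eq_ord _ (gbar_ne_zero Mo)
    rw [show algebraMap (Field.Ser k d) (Field.Kbar k d) _ =
      ((algebraMap (Field.Ser k d) (Field.T0 k d) _ : Field.T0 k d) : Field.Kbar k d) from rfl, hq,
      Subalgebra.coe_mul, w.v.map_mul] at h
    rw [← h]
    exact le_add_of_nonneg_right (w.nonneg q)

variable (b : ℕ)

omit [CharP k p] [PerfectRing k p] in
theorem exists_level : ∃ J : ℕ, 0 < J ∧ ∀ S : Finset (Fin (d + 1) →₀ ℕ),
    S.card = monCount (d + 1) J →
    ¬ ((S.card : ℕ∞) ≤ Module.length (MvPowerSeries (Fin (d + 1)) (WittVector p k))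
      (MvPowerSeries (Fin (d + 1)) (WittVector p k) ⧸
        (Ideal.span {Mo.g, (p : MvPowerSeries (Fin (d + 1)) (WittVector p k)) ^ Mo.b * Mo.G} ⊔
          Ideal.span (Set.range (MvPowerSeries.X :
            Fin (d + 1) → MvPowerSeries (Fin (d + 1)) (WittVector p k))) ^ J))) := by
  obtain ⟨c₀, hc₀⟩ := Mo.small
  refine ⟨(d + 1).factorial * c₀ * 2 ^ d + 1, Nat.succ_pos _, fun S hS hle => ?_⟩
  set J := (d + 1).factorial * c₀ * 2 ^ d + 1
  have h1 := le_trans (mul_le_mul' hle le_rfl) (hc₀ J)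
  rw [hS] at h1
  norm_cast at h1
  have h2 : monCount (d + 1) J ≤ c₀ * (J + 1) ^ d :=
    Nat.le_of_mul_le_mul_right (h1.trans_eq (by ring)) (Nat.succ_pos J)
  have h3 : J ^ (d + 1) ≤ (d + 1).factorial * monCount (d + 1) J := by
    exact pow_le_factorial_mul_monCount (d + 1) ((d + 1).factorial * c₀ * 2 ^ d)
  have h4 : (J + 1) ^ d ≤ 2 ^ d * J ^ d := by
    rw [← mul_pow]; exact Nat.pow_le_pow_left (by omega) d
  have h5 : J * J ^ d ≤ ((d + 1).factorial * c₀ * 2 ^ d) * J ^ d := by
    calc J * J ^ d = J ^ (d + 1) := by ring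
      _ ≤ (d + 1).factorial * (c₀ * (J + 1) ^ d) := h3.trans (Nat.mul_le_mul le_rfl h2)
      _ ≤ (d + 1).factorial * (c₀ * (2 ^ d * J ^ d)) :=
          Nat.mul_le_mul le_rfl (Nat.mul_le_mul le_rfl h4)
      _ = _ := by ring
  have := Nat.le_of_mul_le_mul_right h5 (pow_pos (Nat.succ_pos _) d)
  omega

/-- Uniform bounds on the values of an untilt of the evaluation and of the pole. -/
theorem exists_bound : ∃ J N₀ : ℕ, ∀ N, N₀ ≤ N → ∀ t γ : Field.T0 k d, ¬ IsUnit t →
    E.φ Mo.g ∈ tiltI t N →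
    E.φ ((p : MvPowerSeries (Fin (d + 1)) (WittVector p k)) ^ Mo.b * Mo.G) - (WittVector.teichmuller p) (t ^ Mo.b * γ) ∈
      tiltI t N →
    t ≠ 0 ∧ γ ≠ 0 ∧ (∀ a : Field.T0 k d, t ∣ γ * a → t ∣ a) ∧
      ∀ w : Field.OrdVal k d, 0 < w.at t ∧ ((1 : ℝ) : WithTop ℝ) ≤ D • w.at t ∧
        w.at t ≤ ((J : ℝ) : WithTop ℝ) ∧ w.at (t ^ Mo.b * γ) ≤ ((J : ℝ) : WithTop ℝ) := by
  classical
  obtain ⟨J₁, hJ₁, hlev⟩ := exists_level Mo
  set o := Field.ord k d (MvPowerSeries.map (WittVector.constantCoeff (p := p) (R := k)) Mo.g)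
  refine ⟨J₁ + o, D * J₁ + D + Mo.b + 1, fun N hN t γ ht hg hh => ?_⟩
  have ht0 := t_ne_zero E Mo (by omega) hg
  have hval := value_t E Mo (by omega : D < N) ht hg
  have hpole : ∀ w : Field.OrdVal k d, w.at (t ^ Mo.b * γ) ≤ ((J₁ : ℝ) : WithTop ℝ) := by
    intro w
    by_contra hlt
    rw [not_le] at hlt
    have hNt : ((J₁ : ℝ) : WithTop ℝ) ≤ N • w.at t := by
      obtain ⟨q, hq0, hq⟩ := exists_real w ht0
      have h1 := (hval w).2.1
      rw [Field.OrdVal.at, hq, ← WithTop.coe_nsmul, WithTop.coe_le_coe, nsmul_eq_mul] at h1 ⊢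
      have : (D : ℝ) * J₁ ≤ N := by exact_mod_cast (show D * J₁ ≤ N by omega)
      nlinarith
    obtain ⟨S, hS, hSd⟩ := exists_monomials (d := d) J₁
    refine hlev S hS (le_trans (card_le_coheight E w ht0 hNt S hSd) ?_)
    rw [Module.length_quotient]
    refine Order.coheight_anti (sup_le (Ideal.span_le.2 ?_) ?_)
    · rintro _ (rfl | rfl)
      · show E.inV w Mo.g ∈ tiltI (toV w t) N ⊔ Ideal.span {(WittVector.teichmuller p) (x0 w ^ J₁)}
        exact Ideal.mem_sup_left (map_mem_tiltI (toV w) hg)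
      · show E.inV w _ ∈ tiltI (toV w t) N ⊔ Ideal.span {(WittVector.teichmuller p) (x0 w ^ J₁)}
        obtain ⟨c, hc⟩ := exists_mul_of_le (a := toV w (t ^ Mo.b * γ)) (b := x0 w ^ J₁)
          (by rw [value_x0_pow, coe_toV]; exact hlt.le)
        have h1 := map_mem_tiltI (toV w) hh
        rw [map_sub, map_teichmuller, hc, map_mul (WittVector.teichmuller p)] at h1
        rw [Evaluation.inV, RingHom.comp_apply, ← sub_add_cancel (WittVector.map (toV w) (E.φ _))
          ((WittVector.teichmuller p) (x0 w ^ J₁) * (WittVector.teichmuller p) c)]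
        exact add_mem (Ideal.mem_sup_left h1)
          (Ideal.mem_sup_right (Ideal.mem_span_singleton.2 (dvd_mul_right _ _)))
    · exact Ideal.map_le_iff_le_comap.1 (le_trans (map_spanX_le E w J₁) le_sup_right)
  obtain ⟨w₀⟩ := Field.ordVal_exists k d
  have hγ : γ ≠ 0 := by
    rintro rfl
    have h := hpole w₀
    rw [mul_zero, Field.OrdVal.at, ZeroMemClass.coe_zero, w₀.v.map_zero, top_le_iff] at h
    exact WithTop.coe_ne_top h
  refine ⟨ht0, hγ, fun a ha => ?_, fun w => ⟨(hval w).1, (hval w).2.1, ?_, ?_⟩⟩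
  · obtain ⟨e, hG⟩ := Mo.G_nonzero
    refine Field.dvd_of_dvd_mul_congr k d (gbar_regular Mo)
      (G := MvPowerSeries.map (WittVector.constantCoeff (p := p) (R := k)) Mo.G)
      (fun s hs => by rw [MvPowerSeries.coeff_map, Mo.G_indep s hs, map_zero])
      (fun h => hG (Ideal.mem_span_singleton.1 (by
        rw [WittVector.mem_span_p_iff_coeff_zero_eq_zero, ← c0_apply, ← MvPowerSeries.coeff_map, h,
          map_zero])))
      (dvd_gbar E Mo (by omega) hg) ?_ a ha
    have h1 : (p : WittVector p (Field.T0 k d)) ^ Mo.b * (E.φ Mo.G - (WittVector.teichmuller p) γ) ∈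
        tiltI t (N - Mo.b + Mo.b) := by
      rw [Nat.sub_add_cancel (by omega), mul_sub]
      have h3 := Ideal.mul_mem_right ((WittVector.teichmuller p) γ) _ (p_pow_sub_mem (p := p) t N Mo.b)
      rw [sub_mul, ← map_mul] at h3
      rw [map_mul, map_pow, map_natCast] at hh
      convert Ideal.sub_mem _ hh h3 using 1
      ring
    have h2 := of_p_pow_mul_mem ht0 Mo.b h1
    obtain ⟨n, hn⟩ : ∃ n, N - Mo.b = n + 1 := ⟨N - Mo.b - 1, by omega⟩
    rw [hn] at h2
    obtain ⟨u, v, huv⟩ := mem_tiltI.1 h2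
    have h4 := congrArg (WittVector.constantCoeff (R := Field.T0 k d) (p := p)) huv
    rw [c0_expand, map_sub, c0_teich, c0_apply, E.coeff_zero] at h4
    exact ⟨u.coeff 0, by linear_combination h4⟩
  · exact (hval w).2.2.trans (by exact_mod_cast (Nat.le_add_left o J₁))
  · exact (hpole w).trans (by exact_mod_cast (Nat.le_add_right J₁ o))

omit [CharP k p] [PerfectRing k p] in
/-- The residue characteristic lies in the maximal ideal. -/
theorem p_mem_maximalIdeal (Mo : Model p B (C := WittVector p k) (d := d) D) :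
    (p : B) ∈ maximalIdeal B := by
  obtain ⟨c, hc⟩ := Mo.g_const
  have hg : algebraMap (MvPowerSeries (Fin (d + 1)) (WittVector p k)) B Mo.g = 0 :=
    RingHom.mem_ker.1 (Mo.ker_eq.ge (Ideal.mem_span_singleton_self _))
  have hX : (Ideal.span (Set.range (MvPowerSeries.X :
      Fin (d + 1) → MvPowerSeries (Fin (d + 1)) (WittVector p k)))).map
        (algebraMap (MvPowerSeries (Fin (d + 1)) (WittVector p k)) B) ≤ maximalIdeal B := by
    rw [Ideal.map_span, Ideal.span_le]
    rintro _ ⟨_, ⟨a, rfl⟩, rfl⟩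
    exact Mo.x_mem a
  have h1 := hX (Ideal.mem_map_of_mem _ (sub_C_constantCoeff_mem_span_X Mo.g))
  rw [map_sub, hg, zero_sub, neg_mem_iff, hc, map_mul, map_mul, map_pow, map_natCast,
    map_pow, map_natCast] at h1
  exact (maximalIdeal.isMaximal B).isPrime.mem_of_pow_mem D
    ((Ideal.mul_unit_mem_iff_mem _ ((c.isUnit.map MvPowerSeries.C).map
      (algebraMap (MvPowerSeries (Fin (d + 1)) (WittVector p k)) B))).1 h1)

omit [CharP k p] [PerfectRing k p] in
/-- The reduction puts high powers of elements of the maximal ideal, times the pole, deep in the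
variables. -/
theorem exists_power_mem : ∃ r : ℕ, ∀ S : ℕ, ∀ r₁ ∈ maximalIdeal B, ∃ π ∈ Ideal.span (Set.range (MvPowerSeries.X :
    Fin (d + 1) → MvPowerSeries (Fin (d + 1)) (WittVector p k))) ^ (S - r),
    algebraMap (MvPowerSeries (Fin (d + 1)) (WittVector p k)) B π =
      Mo.h * r₁ ^ S := by
  obtain ⟨r, hr⟩ := Mo.reduction
  have hpow : ∀ j : ℕ, maximalIdeal B ^ (r + j) ≤
      Ideal.span (Set.range (modelX B (WittVector p k) (d := d))) ^ j := by
    intro j
    induction j with
    | zero => simp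
    | succ j ih =>
      rw [← add_assoc, pow_succ', pow_succ']
      refine le_trans ?_ (Ideal.mul_mono le_rfl ih)
      rw [← pow_succ', show r + j + 1 = (r + 1) + j by omega, pow_add _ (r + 1) j, pow_add _ r j,
        ← mul_assoc]
      exact Ideal.mul_mono hr le_rfl
  refine ⟨r, fun S r₁ hr₁ => ?_⟩
  set I := Ideal.span (Set.range (MvPowerSeries.X :
    Fin (d + 1) → MvPowerSeries (Fin (d + 1)) (WittVector p k)))
  have key : ∀ b ∈ (I ^ (S - r)).map (algebraMap _ B), ∀ b' : B, ∃ π ∈ I ^ (S - r),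
      algebraMap (MvPowerSeries (Fin (d + 1)) (WittVector p k)) B π = Mo.h * (b * b') := by
    intro b hb
    refine Submodule.span_induction (p := fun b _ => ∀ b' : B, ∃ π ∈ I ^ (S - r),
      algebraMap (MvPowerSeries (Fin (d + 1)) (WittVector p k)) B π = Mo.h * (b * b')) ?_ ?_ ?_ ?_ hb
    · rintro _ ⟨q, hq, rfl⟩ b'
      obtain ⟨π, hπ⟩ := Mo.cokilled b'
      exact ⟨q * π, Ideal.mul_mem_right _ _ hq, by rw [map_mul, hπ, Model.h]; ring⟩
    · exact fun b' => ⟨0, zero_mem _, by simp⟩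
    · intro x y _ _ hx hy b'
      obtain ⟨π, hπ, e⟩ := hx b'
      obtain ⟨π', hπ', e'⟩ := hy b'
      exact ⟨π + π', add_mem hπ hπ', by rw [map_add, e, e']; ring⟩
    · intro c x _ hx b'
      obtain ⟨π, hπ, e⟩ := hx (c * b')
      exact ⟨π, hπ, by rw [e, smul_eq_mul]; ring⟩
  obtain ⟨π, hπ, e⟩ := key (r₁ ^ S) (by
    rw [Ideal.map_pow, Ideal.map_span, ← Set.range_comp]
    by_cases h : r ≤ S
    · refine hpow (S - r) ?_
      rw [Nat.add_sub_cancel' h]
      exact Ideal.pow_mem_pow hr₁ S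
    · rw [Nat.sub_eq_zero_of_le (by omega), pow_zero, Ideal.one_eq_top]
      trivial) 1
  exact ⟨π, hπ, by rw [e, mul_one]⟩

/-- The value of `t` is nearly at least one. -/
theorem exists_deep : ∃ r₀ J : ℕ, ∀ S : ℕ, ∃ N₀ : ℕ, ∀ N, N₀ ≤ N → ∀ t γ : Field.T0 k d,
    ¬ IsUnit t → E.φ Mo.g ∈ tiltI t N →
    E.φ ((p : MvPowerSeries (Fin (d + 1)) (WittVector p k)) ^ Mo.b * Mo.G) - (WittVector.teichmuller p) (t ^ Mo.b * γ) ∈
      tiltI t N →
    ∀ w : Field.OrdVal k d, (((S - r₀ : ℕ) : ℝ) : WithTop ℝ) ≤ S • w.at t + ((J : ℝ) : WithTop ℝ) := by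
  obtain ⟨J, N₁, hb⟩ := exists_bound E Mo
  obtain ⟨r, hr⟩ := exists_power_mem Mo
  refine ⟨r, J, fun S => ⟨N₁ + D * J + S + 1, fun N hN t γ ht hg hh w => ?_⟩⟩
  obtain ⟨ht0, hγ, -, hall⟩ := hb N (by omega) t γ ht hg hh
  obtain ⟨-, hD, -, hpole⟩ := hall w
  obtain ⟨π, hπ, hπB⟩ := hr S (p : B) (p_mem_maximalIdeal Mo)
  set hP := (p : MvPowerSeries (Fin (d + 1)) (WittVector p k)) ^ Mo.b * Mo.G
  obtain ⟨q, hq⟩ := Ideal.mem_span_singleton'.1 (Mo.ker_eq.le (RingHom.mem_ker.2
    (show algebraMap (MvPowerSeries (Fin (d + 1)) (WittVector p k)) B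
      (hP * (p : MvPowerSeries (Fin (d + 1)) (WittVector p k)) ^ S - π) = 0 by
        rw [map_sub, map_mul _ hP, map_pow, map_natCast, hπB, Model.h, sub_self])))
  obtain ⟨s, hs⟩ := Ideal.mem_span_singleton.1 (map_spanX_le E w (S - r) (Ideal.mem_map_of_mem _ hπ))
  have h1 := Ideal.mul_mem_left _ (E.inV w q) (map_mem_tiltI (toV w) hg)
  rw [show WittVector.map (toV w) (E.φ Mo.g) = E.inV w Mo.g from rfl, ← map_mul, hq, map_sub,
    map_mul, map_pow, map_natCast, hs] at h1
  have h2 := Ideal.mul_mem_right ((p : WittVector p (ordRingOf w)) ^ S) _ (map_mem_tiltI (toV w) hh)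
  rw [map_sub, show WittVector.map (toV w) (E.φ hP) = E.inV w hP from rfl, map_teichmuller,
    sub_mul] at h2
  have h3 := Ideal.mul_mem_left _ ((WittVector.teichmuller p) (toV w (t ^ Mo.b * γ))) (p_pow_sub_mem (p := p) (toV w t) N S)
  have hkey : (WittVector.teichmuller p) (toV w (t ^ Mo.b * γ) * toV w t ^ S) - (WittVector.teichmuller p) (x0 w ^ (S - r)) * s ∈
      tiltI (toV w t) N := by
    rw [map_mul (WittVector.teichmuller p)]
    convert Ideal.sub_mem _ (Ideal.sub_mem _ h1 h2) h3 using 1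
    ring
  obtain ⟨a, ha0, ha⟩ := exists_real w (mul_ne_zero (pow_ne_zero Mo.b ht0) hγ)
  obtain ⟨c, hc0, hc⟩ := exists_real w ht0
  have hprod : w.v ((toV w (t ^ Mo.b * γ) * toV w t ^ S : ordRingOf w) : Field.Kbar k d) =
      (((a + S * c : ℝ)) : WithTop ℝ) := by
    rw [MulMemClass.coe_mul, SubmonoidClass.coe_pow, w.v.map_mul, w.v.map_pow, coe_toV, coe_toV,
      ha, hc, ← WithTop.coe_nsmul, ← WithTop.coe_add, nsmul_eq_mul]
  rw [Field.OrdVal.at, ha, WithTop.coe_le_coe] at hpole
  rw [Field.OrdVal.at, hc, ← WithTop.coe_nsmul, WithTop.coe_le_coe, nsmul_eq_mul] at hD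
  rw [Field.OrdVal.at, hc, ← WithTop.coe_nsmul, ← WithTop.coe_add, WithTop.coe_le_coe, nsmul_eq_mul]
  rcases value_bound w ht0 hkey with h4 | h4
  · rw [hprod, value_x0_pow, WithTop.coe_le_coe] at h4
    linarith
  · exfalso
    rw [hprod, Field.OrdVal.at, hc, ← WithTop.coe_nsmul, WithTop.coe_le_coe, nsmul_eq_mul] at h4
    have hNr : (D : ℝ) * J + S + 1 ≤ N := by exact_mod_cast (show D * J + S + 1 ≤ N by omega)
    have hcpos : 0 < c := by
      rcases hc0.eq_or_lt with rfl | hlt
      · rw [mul_zero] at hD; linarith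
      · exact hlt
    nlinarith [mul_le_mul_of_nonneg_right hNr hc0,
      mul_le_mul_of_nonneg_left hD (Nat.cast_nonneg J : (0 : ℝ) ≤ J)]

end Vale.Agent.P202.Mixed.Extend
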