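import Vale.Agent.P202.Mixed.Extend.Rings

/-!
# P202 mixed characteristic: integrality over `T[t ^ l / γ]`

An element of the field with poles bounded along `t * γ` that is integral over `T[z]` lies in the
perfect closure of `T[z]` after multiplication by any root of `t * γ`.
-/

noncomputable section

namespace Vale.Agent.P202.Mixed.Extend

variable {p : ℕ} [hp : Fact p.Prime] {K : Type*} [Field K] [CharP K p] [PerfectRing K p]

omit [CharP K p] [PerfectRing K p] hp in
/-- An element of every valuation subring containing `T` and `z` is integral over `T[z]`. -/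
theorem isIntegral_of_valuation {T : Subring K} {z y : K}
    (h : ∀ V : ValuationSubring K, T ≤ V.toSubring → z ∈ V → y ∈ V) :
    IsIntegral (Subring.closure (insert z (T : Set K))) y := by
  have e := @iInf_valuationSubring_superset K _ (insert z (T : Set K))
  have h1 : y ∈ (⨅ V : {V : ValuationSubring K // insert z (T : Set K) ⊆ V.toSubring},
      V.1.toSubring) :=
    Subring.mem_iInf.2 fun V => h V.1 (fun a ha => V.2 (Set.mem_insert_of_mem _ ha))
      (V.2 (Set.mem_insert z _))
  have h2 : y ∈ (integralClosure (Subring.closure (insert z (T : Set K))) K).toSubring := e ▸ h1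
  rw [Subalgebra.mem_toSubring, mem_integralClosure_iff] at h2
  exact h2

omit [PerfectRing K p] in
/-- Almost integrality: every root of `t * γ` multiplies `y` into the perfect closure of `T[z]`. -/
theorem root_mul_mem_rootRing {T : Subring K} {c z y : K} (hc : c ∈ T)
    (hbd : ∃ J₀ : ℕ, c ^ J₀ * y ∈ T)
    (hint : ∀ V : ValuationSubring K, T ≤ V.toSubring → z ∈ V → y ∈ V)
    {s : K} {f : ℕ} (hs : s ^ p ^ f = c) : s * y ∈ rootRing (p := p) T z := by
  classical
  let S := Subring.closure (insert z (T : Set K))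
  have hTS : ∀ a ∈ T, a ∈ S := fun a ha => Subring.subset_closure (Set.mem_insert_of_mem _ ha)
  obtain ⟨G, hG⟩ := (isIntegral_of_valuation hint).fg_adjoin_singleton
  let Z : Subalgebra S K :=
    { carrier := {a | ∃ J : ℕ, c ^ J * a ∈ S}
      mul_mem' := fun {a b} ⟨i, hi⟩ ⟨j, hj⟩ => ⟨i + j, by
        convert S.mul_mem hi hj using 1; ring⟩
      add_mem' := fun {a b} ⟨i, hi⟩ ⟨j, hj⟩ => ⟨i + j, by
        convert S.add_mem (S.mul_mem (S.pow_mem (hTS c hc) j) hi)
          (S.mul_mem (S.pow_mem (hTS c hc) i) hj) using 1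
        ring⟩
      algebraMap_mem' := fun r => ⟨0, by rw [pow_zero, one_mul]; exact r.2⟩ }
  obtain ⟨J₀, hJ₀⟩ := hbd
  have hZ : Algebra.adjoin S {y} ≤ Z :=
    Algebra.adjoin_le (Set.singleton_subset_iff.2 ⟨J₀, hTS _ hJ₀⟩)
  have hGZ : ∀ a : G, ∃ J : ℕ, c ^ J * (a : K) ∈ S := fun a =>
    hZ (hG ▸ Submodule.subset_span a.2 : (a : K) ∈ (Algebra.adjoin S {y}).toSubmodule)
  choose J hJ using hGZ
  have key : ∀ a ∈ Algebra.adjoin S {y}, c ^ (∑ a : G, J a) * a ∈ S := by
    intro a ha
    have ha' : a ∈ Submodule.span S (G : Set K) := hG ▸ ha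
    induction ha' using Submodule.span_induction with
    | mem x hx =>
      obtain ⟨k, hk⟩ := Nat.exists_eq_add_of_le
        (Finset.single_le_sum (fun a _ => Nat.zero_le (J a)) (Finset.mem_univ (⟨x, hx⟩ : G)))
      rw [hk, pow_add, mul_comm (c ^ _), mul_assoc]
      exact S.mul_mem (S.pow_mem (hTS c hc) k) (hJ ⟨x, hx⟩)
    | zero => rw [mul_zero]; exact S.zero_mem
    | add x x' hx hx' ih ih' =>
      rw [mul_add]
      exact S.add_mem (ih (hG ▸ hx : x ∈ (Algebra.adjoin S {y}).toSubmodule))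
        (ih' (hG ▸ hx' : x' ∈ (Algebra.adjoin S {y}).toSubmodule))
    | smul r x hx ih =>
      change c ^ (∑ a : G, J a) * ((r : K) * x) ∈ S
      rw [mul_left_comm]
      exact S.mul_mem r.2 (ih (hG ▸ hx : x ∈ (Algebra.adjoin S {y}).toSubmodule))
  refine ⟨f + ∑ a : G, J a, ?_⟩
  obtain ⟨k, hk⟩ := Nat.exists_eq_add_of_le
    (Nat.lt_pow_self (n := ∑ a : G, J a) hp.out.one_lt).le
  rw [mul_pow, pow_add p, pow_mul s, hs, hk, pow_add c, mul_comm (c ^ _), mul_assoc]
  have hy : y ∈ Algebra.adjoin S {y} := Algebra.subset_adjoin (Set.mem_singleton y)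
  have h1 := key _ (pow_mem hy (p ^ f * (∑ a : G, J a + k)))
  exact S.mul_mem (S.pow_mem (hTS c hc) k) h1

end Vale.Agent.P202.Mixed.Extend
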