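import Vale.Agent.P202.Mixed.Extend.Value
import Vale.Agent.P202.Mixed.Lattice.Eval

/-!
# P202 mixed characteristic: the natural evaluation

The natural evaluation of power series over the Witt vectors into the Witt vectors of `T0`.
-/

noncomputable section

namespace Vale.Agent.P202.Mixed.Extend

universe u

variable (p : ℕ) [Fact p.Prime] (k : Type u) [_root_.Field k] (d : ℕ)

/-- The natural evaluation. -/
def evaluation : Evaluation p k d where
  φ := Lattice.evalT (algebraMap (Field.Ser k d) (Field.T0 k d))
  map_X a := by
    have hW : Lattice.evalW (Fin (d + 1)) p k (MvPowerSeries.X a) =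
        WittVector.teichmuller p (MvPowerSeries.X a) := by
      refine Lattice.ext_redW fun N => ?_
      show Lattice.redW (Fin (d + 1)) p k N (Lattice.evalFun _) = _
      rw [Lattice.redW_evalFun, Lattice.redW_evalPoly_congr _ (MvPolynomial.X a) fun α hα => ?_]
      · simp [Lattice.evalPoly]
      · rw [MvPowerSeries.coeff_truncTotal _ hα]
        classical
        simp [MvPowerSeries.X, MvPowerSeries.coeff_monomial, MvPolynomial.coeff_X, eq_comm]
    rw [Lattice.evalT, RingHom.comp_apply, hW, WittVector.map_teichmuller]
  map_C c := by
    rw [Lattice.evalT_coeff_zero, MvPowerSeries.map_C, WittVector.constantCoeff_apply]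

theorem evaluation_φ :
    (evaluation p k d).φ = Lattice.evalT (algebraMap (Field.Ser k d) (Field.T0 k d)) := rfl

end Vale.Agent.P202.Mixed.Extend
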