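import Vale.Agent.P202.Mixed.Extend.Integral

/-!
# P202 mixed characteristic: extension of the evaluation to a birational algebra

`φ : P → W(T)` kills the kernel of `P → B` and sends `h` to `[t ^ b * γ]` modulo `(p - [t], p ^ N)`,
and `h * B` lies in the image of `P`.  The evaluation extends to `B` over `T[1/γ]` at smaller
precision, a small power of `t * γ` moves it into `T`, and elements of a high power of an ideal stay
small.
-/

noncomputable section

namespace Vale.Agent.P202.Mixed.Extend

open WittVector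

variable {p : ℕ} [hp : Fact p.Prime] {K : Type*} [Field K] [CharP K p] [PerfectRing K p]

variable {P B : Type*} [CommRing P] [CommRing B] [Algebra P B]

/-- The data of an untilt and a birational algebra. -/
structure Pole (T : Subring K) (φ : P →+* WittVector p T) (h : P) (b N : ℕ) (B : Type*)
    [CommRing B] [Algebra P B] where
  t : T
  γ : T
  roots : ∀ a ∈ T, ∃ c ∈ T, c ^ p = a
  closed : ∀ a : K, (∀ V : ValuationSubring K, T ≤ V.toSubring → a ∈ V) → a ∈ T
  t_ne : (t : K) ≠ 0
  γ_ne : (γ : K) ≠ 0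
  sharp : ∀ w : WittVector p T, ∃ u : T, w - (WittVector.teichmuller p) u ∈ tiltI t N
  ker : ∀ π : P, algebraMap P B π = 0 → φ π ∈ tiltI t N
  h_eq : φ h - (WittVector.teichmuller p) (t ^ b * γ) ∈ tiltI t N
  cokilled : ∀ r : B, ∃ π : P, algebraMap P B π = algebraMap P B h * r

namespace Pole

variable {T : Subring K} {φ : P →+* WittVector p T} {h : P} {b N : ℕ}
variable (D : Pole T φ h b N B)

/-- The pole divisor `t ^ b * γ`. -/
def q : T := D.t ^ b * D.γ

/-- The ring with the pole allowed. -/
abbrev R : Subring K := awayIn T D.γ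

/-- The untilt ideal after allowing the pole. -/
abbrev J (n : ℕ) : Ideal (WittVector p D.R) :=
  tiltI (Subring.inclusion (le_awayIn T D.γ) D.t) n

/-- The evaluation after allowing the pole. -/
def φ' : P →+* WittVector p D.R := (wIncl (le_awayIn T D.γ)).comp φ

theorem perfR : PerfectRing D.R p := awayIn_perfect D.roots D.γ

omit [CharP K p] [PerfectRing K p] in
theorem t'_ne : Subring.inclusion (le_awayIn T D.γ) D.t ≠ 0 := fun h =>
  D.t_ne (congrArg Subtype.val h)

omit [CharP K p] [PerfectRing K p] in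
theorem h'_eq : D.φ' h - (WittVector.teichmuller p) (Subring.inclusion (le_awayIn T D.γ) D.q) ∈ D.J N := by
  have := map_mem_tiltI (Subring.inclusion (le_awayIn T D.γ)) D.h_eq
  rwa [map_sub, map_teichmuller] at this

omit [CharP K p] [PerfectRing K p] in
theorem ker' {π : P} (hπ : algebraMap P B π = 0) : D.φ' π ∈ D.J N :=
  map_mem_tiltI _ (D.ker π hπ)

/-- The bound of the representative of `h * r` by the pole, where `t ^ l / γ` is integral. -/
theorem valuation_u_le {m l : ℕ} (hm : 0 < m) (hN : m * (b + l) ≤ N) {π : P} {r : B}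
    (hπ : algebraMap P B π = algebraMap P B h * r) (c : Fin m → P)
    (hrel : r ^ m + ∑ i : Fin m, algebraMap P B (c i) * r ^ (i : ℕ) = 0) {u : T}
    (hu : φ π - (WittVector.teichmuller p) u ∈ tiltI D.t N) (V : ValuationSubring K) (hV : T ≤ V.toSubring)
    (hz : (D.t : K) ^ l / D.γ ∈ V) :
    V.valuation (u : K) ≤ V.valuation (D.q : K) := by
  by_contra hlt
  rw [not_le] at hlt
  obtain ⟨a, ha, ham⟩ := exists_mul_eq V (a := toVal V hV u) (b := toVal V hV D.q) hlt
  have hrel' : φ (π ^ m + ∑ i : Fin m, c i * π ^ (i : ℕ) * h ^ (m - (i : ℕ))) ∈ tiltI D.t N := by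
    refine D.ker _ ?_
    rw [map_add, map_pow, hπ, map_sum]
    have : ∑ i : Fin m, algebraMap P B (c i * π ^ (i : ℕ) * h ^ (m - (i : ℕ))) =
        algebraMap P B h ^ m * ∑ i : Fin m, algebraMap P B (c i) * r ^ (i : ℕ) := by
      rw [Finset.mul_sum]
      refine Finset.sum_congr rfl fun i _ => ?_
      rw [← pow_mul_pow_sub (algebraMap P B h) i.2.le, map_mul, map_mul, map_pow, map_pow, hπ]
      ring
    rw [this, mul_pow, ← mul_add, hrel, mul_zero]
  let ι := WittVector.map (p := p) (toVal V hV)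
  have hmk : ∀ x y : WittVector p T, x - y ∈ tiltI D.t N →
      Ideal.Quotient.mk (tiltI (toVal V hV D.t) N) (ι x) = Ideal.Quotient.mk _ (ι y) := fun x y h => by
    rw [Ideal.Quotient.eq, ← map_sub]
    exact map_mem_tiltI _ h
  have h0 := Ideal.Quotient.eq_zero_iff_mem.2 (map_mem_tiltI (toVal V hV) hrel')
  simp only [map_add, map_sum, map_mul, map_pow] at h0
  simp only [show (WittVector.map (toVal V hV)) = ι from rfl, hmk _ _ hu,
    hmk _ _ (show φ h - (WittVector.teichmuller p) D.q ∈ tiltI D.t N from D.h_eq)] at h0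
  simp only [ι, map_teichmuller, ha, map_mul, mul_pow] at h0
  have h1 : Ideal.Quotient.mk (tiltI (toVal V hV D.t) N) ((WittVector.teichmuller p) (toVal V hV u ^ m) *
      (1 + ∑ i : Fin m, WittVector.map (toVal V hV) (φ (c i)) * (WittVector.teichmuller p) a ^ (m - (i : ℕ)))) = 0 := by
    rw [← h0, map_mul, map_add, map_one, map_sum, mul_add, mul_one, Finset.mul_sum, map_pow,
      map_pow]
    refine congrArg _ (Finset.sum_congr rfl fun i _ => ?_)
    rw [← pow_mul_pow_sub (Ideal.Quotient.mk _ ((WittVector.teichmuller p) (toVal V hV u))) i.2.le, map_mul, map_pow]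
    ring
  have hunit : IsUnit (1 + ∑ i : Fin m,
      WittVector.map (toVal V hV) (φ (c i)) * (WittVector.teichmuller p) a ^ (m - (i : ℕ))) := by
    refine isUnit_of_coeff_zero ?_
    rw [← c0_apply, map_add, map_one, map_sum, ← sub_neg_eq_add]
    refine IsLocalRing.isUnit_one_sub_self_of_mem_nonunits _ ((IsLocalRing.mem_maximalIdeal _).1
      (neg_mem (Ideal.sum_mem _ fun i _ => ?_)))
    rw [map_mul, map_pow, c0_teich]
    exact Ideal.mul_mem_left _ _ (Ideal.pow_mem_of_mem _ ham _ (by omega))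
  have ht : toVal V hV D.t ≠ 0 := fun h => D.t_ne (congrArg Subtype.val h)
  have h2 := valuation_le_of_unit_mul V ht hunit (Ideal.Quotient.eq_zero_iff_mem.1 h1)
  have h3 : V.valuation (D.t : K) ^ l ≤ V.valuation (D.γ : K) := by
    have := (V.valuation_le_one_iff _).2 hz
    rwa [map_div₀, map_pow, div_le_one₀ ((Valuation.pos_iff _).2 D.γ_ne)] at this
  have ht1 : V.valuation (D.t : K) ≤ 1 := V.valuation_le_one ⟨_, hV D.t.2⟩
  have h4 : V.valuation (D.t : K) ^ N ≤ V.valuation (D.q : K) ^ m := by
    refine (pow_le_pow_right_of_le_one' ht1 hN).trans ?_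
    rw [mul_comm, pow_mul]
    refine pow_le_pow_left' ?_ m
    rw [q, Subring.coe_mul, Subring.coe_pow, map_mul, map_pow, pow_add]
    exact mul_le_mul' le_rfl h3
  change V.valuation ((toVal V hV u ^ m : V) : K) ≤ V.valuation (D.t : K) ^ N at h2
  rw [SubmonoidClass.coe_pow, map_pow] at h2
  exact absurd (h2.trans h4) (not_le.2 (pow_lt_pow_left₀ hlt zero_le hm.ne'))

/-- Existence of `r` at the level of the tilt. -/
theorem exists_y {m l : ℕ} (hm : 0 < m) (hl : 0 < l) (hN : m * (b + l) ≤ N) (r : B)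
    (c : Fin m → P) (hrel : r ^ m + ∑ i : Fin m, algebraMap P B (c i) * r ^ (i : ℕ) = 0) :
    ∃ (π : P) (y : D.R), algebraMap P B π = algebraMap P B h * r ∧
      (WittVector.teichmuller p) (Subring.inclusion (le_awayIn T D.γ) D.q) * (WittVector.teichmuller p) y - D.φ' π ∈ D.J N ∧
      (∀ V : ValuationSubring K, T ≤ V.toSubring → (D.t : K) ^ l / D.γ ∈ V → (y : K) ∈ V) ∧
      ((D.t : K) * D.γ) ^ (b + 1) * (y : K) ∈ T := by
  obtain ⟨π, hπ⟩ := D.cokilled r
  obtain ⟨u, hu⟩ := D.sharp (φ π)
  have hq : (D.q : K) = (D.t : K) ^ b * D.γ := by rw [q, Subring.coe_mul, Subring.coe_pow]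
  have hq0 : (D.q : K) ≠ 0 := hq ▸ mul_ne_zero (pow_ne_zero _ D.t_ne) D.γ_ne
  have hint : ∀ V : ValuationSubring K, T ≤ V.toSubring → (D.t : K) ^ l / D.γ ∈ V →
      (u : K) / D.q ∈ V := fun V hV hz => by
    rw [← V.valuation_le_one_iff, map_div₀, div_le_one₀ ((Valuation.pos_iff _).2 hq0)]
    exact D.valuation_u_le hm hN hπ c hrel hu V hV hz
  have hy : (u : K) / D.q ∈ D.R := by
    refine ⟨b + 1, D.closed _ fun V hV => ?_⟩
    by_cases hz : (D.t : K) ^ l / D.γ ∈ V
    · exact V.mul_mem _ _ (V.toSubring.pow_mem (hV D.γ.2) _) (hint V hV hz)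
    have hle : V.valuation (D.γ : K) ≤ V.valuation (D.t : K) := by
      rw [← V.valuation_le_one_iff, map_div₀, not_le, map_pow,
        one_lt_div₀ ((Valuation.pos_iff _).2 D.γ_ne)] at hz
      exact hz.le.trans (pow_le_of_le_one zero_le (V.valuation_le_one ⟨_, hV D.t.2⟩) hl.ne')
    rw [← V.valuation_le_one_iff, map_mul, map_pow, map_div₀, hq, map_mul, map_pow, pow_succ,
      ← mul_div_assoc, div_le_one₀ (mul_pos (pow_pos ((Valuation.pos_iff _).2 D.t_ne) _)
        ((Valuation.pos_iff _).2 D.γ_ne))]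
    exact (mul_le_of_le_one_right' (V.valuation_le_one ⟨_, hV u.2⟩)).trans
      (mul_le_mul' (pow_le_pow_left' hle b) le_rfl)
  refine ⟨π, ⟨_, hy⟩, hπ, ?_, hint, ?_⟩
  · have e : Subring.inclusion (le_awayIn T D.γ) D.q * ⟨(u : K) / D.q, hy⟩ =
        Subring.inclusion (le_awayIn T D.γ) u := Subtype.ext (by
      change (D.q : K) * ((u : K) / D.q) = u
      rw [mul_div_cancel₀ _ hq0])
    rw [← map_mul, e, ← neg_mem_iff, neg_sub]
    have := map_mem_tiltI (Subring.inclusion (le_awayIn T D.γ)) hu
    rwa [map_sub, map_teichmuller] at this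
  · have e : ((D.t : K) * D.γ) ^ (b + 1) * ((u : K) / D.q) =
        ((D.t * D.γ ^ b * u : T) : K) := by
      have ht := D.t_ne
      have hγ := D.γ_ne
      push_cast
      rw [hq, mul_pow, pow_succ, pow_succ]
      field_simp
    rw [e]
    exact SetLike.coe_mem _

/-- Dividing by the pole loses `b` steps of precision. -/
theorem of_q_mul_mem {j : ℕ} {x : WittVector p D.R}
    (hx : (WittVector.teichmuller p) (Subring.inclusion (le_awayIn T D.γ) D.q) * x ∈ D.J (j + b)) : x ∈ D.J j := by
  have := D.perfR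
  let ginv : D.R := ⟨(D.γ : K)⁻¹, inv_mem_awayIn T D.γ⟩
  have e : ginv * Subring.inclusion (le_awayIn T D.γ) D.q =
      Subring.inclusion (le_awayIn T D.γ) D.t ^ b := Subtype.ext (by
    push_cast
    change (D.γ : K)⁻¹ * (D.q : K) = (D.t : K) ^ b
    rw [q, Subring.coe_mul, Subring.coe_pow, mul_comm ((D.t : K) ^ b), ← mul_assoc,
      inv_mul_cancel₀ D.γ_ne, one_mul])
  have h1 := Ideal.mul_mem_left _ ((WittVector.teichmuller p) ginv) hx
  rw [← mul_assoc, ← map_mul, e] at h1
  have h2 := Ideal.mul_mem_right x _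
    (p_pow_sub_mem (p := p) (Subring.inclusion (le_awayIn T D.γ) D.t) (j + b) b)
  rw [sub_mul] at h2
  have h3 := Ideal.add_mem _ h2 h1
  rw [sub_add_cancel] at h3
  exact of_p_pow_mul_mem D.t'_ne b h3

/-- The defining congruence determines the value up to the precision. -/
theorem eq_of_congr {j : ℕ} (hj : j + b ≤ N) {r : B} {π π' : P} {x x' : WittVector p D.R}
    (hπ : algebraMap P B π = algebraMap P B h * r) (hπ' : algebraMap P B π' = algebraMap P B h * r)
    (hx : (WittVector.teichmuller p) (Subring.inclusion (le_awayIn T D.γ) D.q) * x - D.φ' π ∈ D.J (j + b))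
    (hx' : (WittVector.teichmuller p) (Subring.inclusion (le_awayIn T D.γ) D.q) * x' - D.φ' π' ∈ D.J (j + b)) :
    x - x' ∈ D.J j := by
  refine D.of_q_mul_mem ?_
  have hk : D.φ' (π - π') ∈ D.J (j + b) :=
    tiltI_anti _ hj (D.ker' (by rw [map_sub, hπ, hπ', sub_self]))
  rw [map_sub] at hk
  convert Ideal.add_mem _ (Ideal.sub_mem _ hx hx') hk using 1
  ring

/-- The evaluation extends to `B` with the pole allowed; roots of the pole bring it back to `T`. -/
theorem exists_rho {n m l : ℕ} (hm : 0 < m) (hl : 0 < l) (hN : m * (b + l) ≤ N)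
    (hn : n + 2 * b ≤ N)
    (hrel : ∀ r : B, ∃ c : Fin m → P,
      r ^ m + ∑ i : Fin m, algebraMap P B (c i) * r ^ (i : ℕ) = 0) :
    ∃ ρ : B →+* WittVector p D.R ⧸ D.J n,
      (∀ a : P, ρ (algebraMap P B a) = Ideal.Quotient.mk _ (D.φ' a)) ∧
      ∀ (f : ℕ) (g s : T), n * p ^ f ≤ l → (g : K) ^ p ^ f = D.γ →
        (s : K) ^ p ^ f = (D.t : K) * D.γ → ∀ r : B, ∃ w : WittVector p T,
          Ideal.Quotient.mk (D.J n) ((WittVector.teichmuller p) (Subring.inclusion (le_awayIn T D.γ) (g ^ n * s))) * ρ r =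
            Ideal.Quotient.mk (D.J n) (wIncl (le_awayIn T D.γ) w) := by
  classical
  have hy := fun r : B => (hrel r).elim fun c hc => D.exists_y hm hl hN r c hc
  choose π y hπ hcong hint hbd using hy
  -- uniqueness at every admissible level
  have huniq : ∀ {j : ℕ}, j + b ≤ N → ∀ {r : B} {π' : P} {x : WittVector p D.R},
      algebraMap P B π' = algebraMap P B h * r →
      (WittVector.teichmuller p) (Subring.inclusion (le_awayIn T D.γ) D.q) * x - D.φ' π' ∈ D.J (j + b) →
      x - (WittVector.teichmuller p) (y r) ∈ D.J j := fun {j} hj {r π' x} hπ' hx =>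
    D.eq_of_congr hj hπ' (hπ r) hx (tiltI_anti _ hj (hcong r))
  have hbase : ∀ a : P, D.φ' a - (WittVector.teichmuller p) (y (algebraMap P B a)) ∈ D.J n := fun a => by
    refine huniq (by omega) (π' := h * a) (map_mul _ _ _) ?_
    have := tiltI_anti _ (show n + b ≤ N by omega) (D.h'_eq)
    rw [map_mul]
    convert Ideal.mul_mem_right (D.φ' a) _ (neg_mem this) using 1
    ring
  refine ⟨
    { toFun := fun r => Ideal.Quotient.mk (D.J n) ((WittVector.teichmuller p) (y r))
      map_one' := by
        have := hbase 1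
        rw [map_one, map_one] at this
        exact ((Ideal.Quotient.mk_eq_mk_iff_sub_mem _ _).2 this).symm.trans (map_one _)
      map_mul' := fun r r' => by
        rw [← map_mul]
        refine ((Ideal.Quotient.mk_eq_mk_iff_sub_mem _ _).2 ?_).symm
        refine huniq (j := n) (by omega) (hπ (r * r')) ?_
        refine D.of_q_mul_mem ?_
        have h1 := tiltI_anti _ (show n + b + b ≤ N by omega) (hcong r)
        have h2 := tiltI_anti _ (show n + b + b ≤ N by omega) (hcong r')
        have h3 := tiltI_anti _ (show n + b + b ≤ N by omega) D.h'_eq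
        have h4 : D.φ' (π r * π r' - h * π (r * r')) ∈ D.J (n + b + b) :=
          tiltI_anti _ (by omega) (D.ker' (by
            rw [map_sub, map_mul, map_mul, hπ, hπ, hπ]; ring))
        rw [map_sub, map_mul, map_mul] at h4
        convert Ideal.add_mem _ (Ideal.add_mem _
          (Ideal.mul_mem_left _ ((WittVector.teichmuller p) (Subring.inclusion (le_awayIn T D.γ) D.q) * (WittVector.teichmuller p) (y r')) h1)
          (Ideal.mul_mem_left _ (D.φ' (π r)) h2))
          (Ideal.add_mem _ h4 (Ideal.mul_mem_left _ (D.φ' (π (r * r'))) h3)) using 1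
        ring
      map_zero' := by
        have := hbase 0
        rw [map_zero, map_zero] at this
        exact ((Ideal.Quotient.mk_eq_mk_iff_sub_mem _ _).2 this).symm.trans (map_zero _)
      map_add' := fun r r' => by
        rw [← map_add]
        refine ((Ideal.Quotient.mk_eq_mk_iff_sub_mem _ _).2 ?_).symm
        refine huniq (j := n) (by omega) (π' := π r + π r') (by rw [map_add, hπ, hπ, mul_add]) ?_
        have h1 := tiltI_anti _ (show n + b ≤ N by omega) (hcong r)
        have h2 := tiltI_anti _ (show n + b ≤ N by omega) (hcong r')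
        rw [map_add]
        convert Ideal.add_mem _ h1 h2 using 1
        ring },
    fun a => ((Ideal.Quotient.mk_eq_mk_iff_sub_mem _ _).2 (hbase a)).symm, ?_⟩
  intro f g s hfl hg hs r
  have hmem := root_mul_mem_rootRing (p := p) (T.mul_mem D.t.2 D.γ.2) ⟨b + 1, hbd r⟩ (hint r) hs
  obtain ⟨w, hw⟩ := descend_witt D.roots (t := D.t) D.γ_ne hg n l hfl
    ((WittVector.teichmuller p) (⟨(s : K) * (y r : K), hmem⟩ : rootRing (p := p) T ((D.t : K) ^ l / D.γ)))
  refine ⟨w, ?_⟩
  change Ideal.Quotient.mk _ _ * Ideal.Quotient.mk _ ((WittVector.teichmuller p) (y r)) = _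
  rw [← map_mul, Ideal.Quotient.eq]
  rw [wIncl_teich, incl_mk] at hw
  rw [map_mul (Subring.inclusion (le_awayIn T D.γ)), map_mul (WittVector.teichmuller p), mul_assoc, ← map_mul (WittVector.teichmuller p)]
  exact hw

/-- Elements some power of which lies in a small ideal are small after the slack. -/
theorem valuation_rho_le {n : ℕ} (hn : n ≤ N)
    (hreg : ∀ a : T, D.t ∣ D.γ * a → D.t ∣ a) (ρ : B →+* WittVector p D.R ⧸ D.J n)
    (hρ : ∀ a : P, ρ (algebraMap P B a) = Ideal.Quotient.mk _ (D.φ' a))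
    {u u' w : T} {r : B} {S : ℕ} (hu : u ^ S = D.q * u')
    (hw : Ideal.Quotient.mk (D.J n) ((WittVector.teichmuller p) (Subring.inclusion (le_awayIn T D.γ) u)) * ρ r =
      Ideal.Quotient.mk (D.J n) ((WittVector.teichmuller p) (Subring.inclusion (le_awayIn T D.γ) w)))
    {π : P} (hπ : algebraMap P B π = algebraMap P B h * r ^ S)
    (V : ValuationSubring K) (hV : T ≤ V.toSubring) {c : V} {z : WittVector p V}
    (hc : WittVector.map (toVal V hV) (φ π) = (WittVector.teichmuller p) c * z) :
    V.valuation (w : K) ^ S ≤ V.valuation (c : K) ∨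
      V.valuation (w : K) ^ S ≤ V.valuation (D.t : K) ^ n := by
  have : PerfectRing T p := perfectRing_of_roots T D.roots
  have := D.perfR
  have hdiv : ∀ (j : ℕ) (a : T), D.t ∣ D.γ ^ j * a → D.t ∣ a := by
    intro j
    induction j with
    | zero => intro a ha; rwa [pow_zero, one_mul] at ha
    | succ j ih => intro a ha; exact ih a (hreg _ (by rwa [← mul_assoc, ← pow_succ']))
  have hdesc : ∀ a : T, Subring.inclusion (le_awayIn T D.γ) D.t ∣
      Subring.inclusion (le_awayIn T D.γ) a → D.t ∣ a := by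
    rintro a ⟨⟨e, j, he⟩, hae⟩
    have hae' : (a : K) = (D.t : K) * e := congrArg Subtype.val hae
    refine hdiv j a ⟨⟨_, he⟩, Subtype.ext ?_⟩
    push_cast
    rw [hae']; ring
  -- the congruence inside `T`
  have key : Ideal.Quotient.mk (D.J n) ((WittVector.teichmuller p) (Subring.inclusion (le_awayIn T D.γ) (w ^ S))) =
      Ideal.Quotient.mk (D.J n) (wIncl (le_awayIn T D.γ) ((WittVector.teichmuller p) u' * φ π)) := by
    have hq : ρ (algebraMap P B h) =
        Ideal.Quotient.mk (D.J n) ((WittVector.teichmuller p) (Subring.inclusion (le_awayIn T D.γ) D.q)) := by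
      rw [hρ, Ideal.Quotient.eq]
      exact tiltI_anti _ hn D.h'_eq
    rw [map_pow (Subring.inclusion _), map_pow (WittVector.teichmuller p), map_pow, ← hw, mul_pow, ← map_pow, ← map_pow,
      ← map_pow, hu, map_mul, map_mul, map_mul, ← hq, mul_right_comm, ← map_pow ρ, ← map_mul ρ,
      ← hπ, hρ, ← map_mul, map_mul (wIncl (le_awayIn T D.γ)), wIncl_teich, mul_comm]
    rfl
  rw [Ideal.Quotient.eq, ← wIncl_teich (le_awayIn T D.γ), ← map_sub] at key
  have hinj : Function.Injective (Subring.inclusion (le_awayIn T D.γ)) := fun a a' h =>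
    Subtype.ext (congrArg (fun z : D.R => (z : K)) h)
  have h1 := of_map_mem_tiltI (Subring.inclusion (le_awayIn T D.γ)) hinj
    (fun h => D.t_ne (congrArg Subtype.val h)) hdesc n key
  have h2 := map_mem_tiltI (toVal V hV) h1
  rw [map_sub, map_mul, map_teichmuller, map_teichmuller, hc, mul_left_comm] at h2
  have ht : toVal V hV D.t ≠ 0 := fun h => D.t_ne (congrArg Subtype.val h)
  have h3 := valuation_bound V ht _ h2
  simp only [map_pow, SubmonoidClass.coe_pow] at h3
  exact h3

end Pole

end Vale.Agent.P202.Mixed.Extend
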