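import Vale.Agent.P202.Mixed.Extend.Basic

/-!
# P202 mixed characteristic: subrings around the pole and the descent

`awayIn T γ` allows powers of `γ` in the denominator, `rootRing T z` is the perfect closure of
`T[z]` in the field.  The descent: Witt vectors over the perfect closure of `T[t ^ l / γ]` times a
small power of `γ` come from `T` modulo `(p - [t], p ^ n)`.
-/

noncomputable section

namespace Vale.Agent.P202.Mixed.Extend

open WittVector

variable {p : ℕ} [hp : Fact p.Prime] {K : Type*} [Field K]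

/-- The elements that a power of `γ` multiplies into `T`. -/
def awayIn (T : Subring K) (γ : T) : Subring K where
  carrier := {a | ∃ j : ℕ, (γ : K) ^ j * a ∈ T}
  one_mem' := ⟨0, by simp⟩
  zero_mem' := ⟨0, by simp⟩
  mul_mem' := fun {a b} ⟨i, hi⟩ ⟨j, hj⟩ =>
    ⟨i + j, by convert T.mul_mem hi hj using 1; ring⟩
  add_mem' := fun {a b} ⟨i, hi⟩ ⟨j, hj⟩ =>
    ⟨i + j, by
      convert T.add_mem (T.mul_mem (T.pow_mem γ.2 j) hi) (T.mul_mem (T.pow_mem γ.2 i) hj) using 1
      ring⟩
  neg_mem' := fun {a} ⟨i, hi⟩ => ⟨i, by rw [mul_neg]; exact T.neg_mem hi⟩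

theorem mem_awayIn {T : Subring K} {γ : T} {a : K} :
    a ∈ awayIn T γ ↔ ∃ j : ℕ, (γ : K) ^ j * a ∈ T := Iff.rfl

theorem le_awayIn (T : Subring K) (γ : T) : T ≤ awayIn T γ :=
  fun a ha => ⟨0, by simpa using ha⟩

theorem inv_mem_awayIn (T : Subring K) (γ : T) : (γ : K)⁻¹ ∈ awayIn T γ := by
  rcases eq_or_ne (γ : K) 0 with h | h
  · rw [h, inv_zero]; exact Subring.zero_mem _
  · exact ⟨1, by rw [pow_one, mul_inv_cancel₀ h]; exact T.one_mem⟩

variable [CharP K p] [PerfectRing K p]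

omit [PerfectRing K p] in
theorem root_mem {T : Subring K} (h : ∀ a ∈ T, ∃ b ∈ T, b ^ p = a) :
    ∀ (i : ℕ) {b : K}, b ^ p ^ i ∈ T → b ∈ T
  | 0, b, hb => by simpa using hb
  | i + 1, b, hb => by
    obtain ⟨c, hc, hcb⟩ := h _ hb
    rw [pow_succ, pow_mul] at hcb
    exact root_mem h i (frobenius_inj K p (by simpa [frobenius_def] using hcb) ▸ hc)

variable (p) in
theorem awayIn_roots {T : Subring K} (h : ∀ a ∈ T, ∃ b ∈ T, b ^ p = a) (γ : T) :
    ∀ a ∈ awayIn T γ, ∃ b ∈ awayIn T γ, b ^ p = a := by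
  rintro a ⟨j, hj⟩
  obtain ⟨b, hb⟩ := exists_root (p := p) a 1
  rw [pow_one] at hb
  refine ⟨b, ⟨j, root_mem h 1 ?_⟩, hb⟩
  rw [pow_one, mul_pow, hb, ← pow_mul]
  obtain ⟨k, hk⟩ := Nat.exists_eq_add_of_le (Nat.le_mul_of_pos_right j hp.out.pos)
  rw [hk, pow_add, mul_comm ((γ : K) ^ j), mul_assoc]
  exact T.mul_mem (T.pow_mem γ.2 _) hj

/-- The perfect closure in the field of the subring generated by `T` and `z`. -/
def rootRing (T : Subring K) (z : K) : Subring K where
  carrier := {a | ∃ i : ℕ, a ^ p ^ i ∈ Subring.closure (insert z (T : Set K))}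
  one_mem' := ⟨0, by simp⟩
  zero_mem' := ⟨0, by simp⟩
  mul_mem' := fun {a b} ⟨i, hi⟩ ⟨j, hj⟩ => ⟨i + j, by
    rw [mul_pow]
    exact Subring.mul_mem _ (by rw [pow_add, pow_mul]; exact Subring.pow_mem _ hi _)
      (by rw [pow_add, mul_comm, pow_mul]; exact Subring.pow_mem _ hj _)⟩
  add_mem' := fun {a b} ⟨i, hi⟩ ⟨j, hj⟩ => ⟨i + j, by
    rw [add_pow_char_pow]
    exact Subring.add_mem _ (by rw [pow_add, pow_mul]; exact Subring.pow_mem _ hi _)
      (by rw [pow_add, mul_comm, pow_mul]; exact Subring.pow_mem _ hj _)⟩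
  neg_mem' := fun {a} ⟨i, hi⟩ => ⟨i, by
    rw [← iterateFrobenius_def p i (-a), map_neg, iterateFrobenius_def]
    exact Subring.neg_mem _ hi⟩

omit [PerfectRing K p] in
theorem mem_rootRing {T : Subring K} {z a : K} :
    a ∈ rootRing (p := p) T z ↔ ∃ i : ℕ, a ^ p ^ i ∈ Subring.closure (insert z (T : Set K)) :=
  Iff.rfl

theorem rootRing_roots (T : Subring K) (z : K) :
    ∀ a ∈ rootRing (p := p) T z, ∃ b ∈ rootRing (p := p) T z, b ^ p = a := by
  rintro a ⟨i, hi⟩
  obtain ⟨b, hb⟩ := exists_root (p := p) a 1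
  rw [pow_one] at hb
  exact ⟨b, ⟨i + 1, by rw [pow_succ', pow_mul, hb]; exact hi⟩, hb⟩

omit [PerfectRing K p] in
theorem le_rootRing (T : Subring K) (z : K) : T ≤ rootRing (p := p) T z :=
  fun a ha => ⟨0, Subring.subset_closure (Set.mem_insert_of_mem _ (by simpa using ha))⟩

omit [PerfectRing K p] in
theorem self_mem_rootRing (T : Subring K) (z : K) : z ∈ rootRing (p := p) T z :=
  ⟨0, Subring.subset_closure (by simp)⟩

theorem rootRing_le_awayIn {T : Subring K} (h : ∀ a ∈ T, ∃ b ∈ T, b ^ p = a) (γ t : T) (l : ℕ) :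
    rootRing (p := p) T ((t : K) ^ l / γ) ≤ awayIn T γ := by
  rintro a ⟨i, hi⟩
  have h1 : Subring.closure (insert ((t : K) ^ l / γ) (T : Set K)) ≤ awayIn T γ := by
    rw [Subring.closure_le, Set.insert_subset_iff]
    refine ⟨?_, le_awayIn T γ⟩
    rw [div_eq_mul_inv]
    exact (awayIn T γ).mul_mem (le_awayIn T γ (T.pow_mem t.2 l)) (inv_mem_awayIn T γ)
  exact root_mem (awayIn_roots p h γ) i (h1 hi)

/-- Descent of a root of the variable: a small power of `γ` puts it in `T` up to a multiple of `t`. -/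
theorem descend_rootRing {T : Subring K} (h : ∀ a ∈ T, ∃ b ∈ T, b ^ p = a) {γ t g : T}
    (hγ : (γ : K) ≠ 0) {f l l' : ℕ} (hg : (g : K) ^ p ^ f = γ) (hl : l' + p ^ f ≤ l) {a : K}
    (ha : a ∈ rootRing (p := p) T ((t : K) ^ l / γ)) :
    ∃ a₀ : T, ∃ c ∈ rootRing (p := p) T ((t : K) ^ l' / γ),
      (g : K) * a = (a₀ : K) + (t : K) * c := by
  classical
  obtain ⟨i₀, hi₀⟩ := ha
  obtain ⟨i, hfi, hi₀i⟩ : ∃ i, f ≤ i ∧ i₀ ≤ i := ⟨f + i₀, by omega, by omega⟩
  obtain ⟨G, hG⟩ := exists_root (p := p) (γ : K) i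
  obtain ⟨T₁, hT₁⟩ := exists_root (p := p) (t : K) i
  have hGm : G ∈ T := root_mem h i (hG.symm ▸ γ.2)
  have hTm : T₁ ∈ T := root_mem h i (hT₁.symm ▸ t.2)
  have hG0 : G ≠ 0 := fun h0 => hγ (by
    rw [← hG, h0, zero_pow (pow_ne_zero _ hp.out.ne_zero)])
  obtain ⟨e, he⟩ := Nat.exists_eq_add_of_le hfi
  have hgG : (g : K) = G ^ p ^ e := iterateFrobenius_inj K p f (by
    simp only [iterateFrobenius_def]
    rw [hg, ← pow_mul, ← pow_add, add_comm e f, ← he, hG])
  -- the roots of the elements of `T[z]` that `g` sends into `T + t * rootRing z'`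
  let S : AddSubgroup K :=
    { carrier := {b | ∃ a₀ : T, ∃ c ∈ rootRing (p := p) T ((t : K) ^ l' / γ),
        (g : K) * b = (a₀ : K) + (t : K) * c}
      zero_mem' := ⟨0, 0, Subring.zero_mem _, by simp⟩
      add_mem' := fun {b b'} ⟨a₀, c, hc, e⟩ ⟨a₀', c', hc', e'⟩ =>
        ⟨a₀ + a₀', c + c', Subring.add_mem _ hc hc', by push_cast; rw [mul_add, e, e']; ring⟩
      neg_mem' := fun {b} ⟨a₀, c, hc, e⟩ =>
        ⟨-a₀, -c, Subring.neg_mem _ hc, by push_cast; rw [mul_neg, e]; ring⟩ }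
  have hζ : (T₁ ^ l' / G) ∈ rootRing (p := p) T ((t : K) ^ l' / γ) := ⟨i, by
    rw [div_pow, ← pow_mul, mul_comm, pow_mul, hT₁, hG]
    exact Subring.subset_closure (Set.mem_insert _ _)⟩
  have hmono : ∀ (j : ℕ) (c : K), c ∈ T → c * (T₁ ^ l / G) ^ j ∈ S := by
    intro j c hc
    rcases le_total j (p ^ e) with hj | hj
    · refine ⟨⟨c * (T₁ ^ (l * j) * G ^ (p ^ e - j)), T.mul_mem hc (T.mul_mem (T.pow_mem hTm _)
        (T.pow_mem hGm _))⟩, 0, Subring.zero_mem _, ?_⟩
      obtain ⟨r, hr⟩ := Nat.exists_eq_add_of_le hj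
      simp only [hgG, hr, Nat.add_sub_cancel_left, div_pow, pow_add, ← pow_mul, mul_zero, add_zero]
      field_simp
    · obtain ⟨r, hr⟩ := Nat.exists_eq_add_of_le hj
      have hk : p ^ i + l' * r ≤ l * j := by
        calc p ^ i + l' * r = p ^ f * p ^ e + l' * r := by rw [he, pow_add]
          _ ≤ p ^ f * j + l' * j := Nat.add_le_add (Nat.mul_le_mul_left _ hj)
            (Nat.mul_le_mul_left _ (by omega))
          _ = (l' + p ^ f) * j := by ring
          _ ≤ l * j := Nat.mul_le_mul_right _ hl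
      obtain ⟨k, hk⟩ := Nat.exists_eq_add_of_le hk
      refine ⟨0, c * T₁ ^ k * (T₁ ^ l' / G) ^ r,
        Subring.mul_mem _ (le_rootRing T _ (T.mul_mem hc (T.pow_mem hTm _))) (Subring.pow_mem _ hζ _),
        ?_⟩
      rw [← hT₁, hgG, div_pow, div_pow, ← pow_mul, ← pow_mul, hk, hr]
      push_cast
      field_simp
      ring
  obtain ⟨b, hb, hba⟩ : ∃ b, b ∈ S ∧ b ^ p ^ i = a ^ p ^ i := by
    have hi : a ^ p ^ i ∈ Subring.closure (insert ((t : K) ^ l / γ) (T : Set K)) := by
      obtain ⟨j, rfl⟩ := Nat.exists_eq_add_of_le hi₀i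
      rw [pow_add, pow_mul]
      exact Subring.pow_mem _ hi₀ _
    have hle : Subring.closure (insert ((t : K) ^ l / γ) (T : Set K)) ≤
        (Algebra.adjoin T {(t : K) ^ l / γ}).toSubring := by
      rw [Subring.closure_le, Set.insert_subset_iff]
      exact ⟨Algebra.subset_adjoin rfl, fun y hy => Subalgebra.algebraMap_mem _ (⟨y, hy⟩ : T)⟩
    have h2 := hle hi
    rw [Subalgebra.mem_toSubring, Algebra.adjoin_singleton_eq_range_aeval] at h2
    obtain ⟨q, hq⟩ := h2
    change Polynomial.aeval ((t : K) ^ l / γ) q = _ at hq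
    rw [← hq, Polynomial.aeval_eq_sum_range]
    choose r hr using fun j : ℕ => exists_root (p := p) ((q.coeff j : T) : K) i
    refine ⟨∑ j ∈ Finset.range (q.natDegree + 1), r j * (T₁ ^ l / G) ^ j,
      S.sum_mem fun j _ => hmono j _ (root_mem h i ((hr j).symm ▸ (q.coeff j).2)), ?_⟩
    rw [sum_pow_char_pow]
    refine Finset.sum_congr rfl fun j _ => ?_
    rw [mul_pow, hr, ← pow_mul, mul_comm j, pow_mul, div_pow, ← pow_mul, mul_comm l, pow_mul, hT₁,
      hG]
    rfl
  have : b = a := iterateFrobenius_inj K p i (by simpa [iterateFrobenius_def] using hba)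
  exact this ▸ hb

theorem rootRing_perfect (T : Subring K) (z : K) : PerfectRing (rootRing (p := p) T z) p :=
  perfectRing_of_roots _ (rootRing_roots T z)

theorem awayIn_perfect {T : Subring K} (h : ∀ a ∈ T, ∃ b ∈ T, b ^ p = a) (γ : T) :
    PerfectRing (awayIn T γ) p :=
  perfectRing_of_roots _ (awayIn_roots p h γ)

instance subring_charP (T : Subring K) : CharP T p :=
  (RingHom.charP_iff T.subtype Subtype.val_injective p).2 inferInstance

/-- The Witt vectors of a subring inside those of a larger one. -/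
def wIncl {S S' : Subring K} (h : S ≤ S') : WittVector p S →+* WittVector p S' :=
  WittVector.map (Subring.inclusion h)

omit [CharP K p] [PerfectRing K p] in
theorem wIncl_teich {S S' : Subring K} (h : S ≤ S') (a : S) :
    wIncl h ((WittVector.teichmuller p) a) = (WittVector.teichmuller p) (Subring.inclusion h a) := map_teichmuller p _ a

omit [CharP K p] [PerfectRing K p] in
theorem incl_incl {S S' S'' : Subring K} (h : S ≤ S') (h' : S' ≤ S'') (a : S) :
    Subring.inclusion h' (Subring.inclusion h a) = Subring.inclusion (h.trans h') a := rfl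

omit [CharP K p] [PerfectRing K p] in
theorem incl_mk {S S' : Subring K} (h : S ≤ S') (c : K) (hc : c ∈ S) :
    Subring.inclusion h ⟨c, hc⟩ = ⟨c, h hc⟩ := rfl

omit [CharP K p] [PerfectRing K p] in
theorem wIncl_comp {S S' S'' : Subring K} (h : S ≤ S') (h' : S' ≤ S'') (x : WittVector p S) :
    wIncl h' (wIncl h x) = wIncl (h.trans h') x := by
  ext n
  simp [wIncl, map_coeff]

theorem step_identity {A : Type*} [CommRing A] {P T g a₀ c W Y W₀ U V gn : A} {n : ℕ}
    (hy : Y * P = g * W - a₀ - T * c) (huv : U * (P - T) + V * P ^ n = gn * (Y + c) - W₀) :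
    (P * U - gn * c) * (P - T) + V * P ^ (n + 1) = gn * g * W - (gn * a₀ + P * W₀) := by
  rw [pow_succ]
  linear_combination P * huv + gn * hy

theorem split_step {R : Type*} [CommRing R] [CharP R p] [PerfectRing R p] (g a₀ t c : R)
    (w : WittVector p R) (h : g * w.coeff 0 = a₀ + t * c) :
    ∃ y, y * (p : WittVector p R) = (WittVector.teichmuller p) g * w - (WittVector.teichmuller p) a₀ - (WittVector.teichmuller p) t * (WittVector.teichmuller p) c := by
  refine Ideal.mem_span_singleton'.1 ((mem_span_p_iff_coeff_zero_eq_zero _).2 ?_)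
  rw [← c0_apply, map_sub, map_sub, map_mul, map_mul, c0_teich, c0_teich, c0_teich, c0_teich,
    c0_apply, h]
  ring

/-- The descent: `g ^ n` times a Witt vector over the perfect closure of `T[t ^ l / γ]` is congruent
to one over `T` when `l` is at least `n * p ^ f`. -/
theorem descend_witt {T : Subring K} (h : ∀ a ∈ T, ∃ b ∈ T, b ^ p = a) {γ t g : T}
    (hγ : (γ : K) ≠ 0) {f : ℕ} (hg : (g : K) ^ p ^ f = γ) :
    ∀ (n l : ℕ), n * p ^ f ≤ l → ∀ w : WittVector p (rootRing (p := p) T ((t : K) ^ l / γ)),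
      ∃ w₀ : WittVector p T,
        (WittVector.teichmuller p) (Subring.inclusion (le_awayIn T γ) (g ^ n)) * wIncl (rootRing_le_awayIn h γ t l) w -
          wIncl (le_awayIn T γ) w₀ ∈ tiltI (Subring.inclusion (le_awayIn T γ) t) n := by
  have : PerfectRing (awayIn T γ) p := awayIn_perfect h γ
  intro n
  induction n with
  | zero =>
    intro l _ w
    exact ⟨0, mem_tiltI_zero _ _⟩
  | succ n ih =>
    intro l hl w
    have hl' : n * p ^ f + p ^ f ≤ l := by rw [← Nat.succ_mul]; exact hl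
    have : PerfectRing (rootRing (p := p) T ((t : K) ^ l / γ)) p := rootRing_perfect T _
    obtain ⟨w₁, hw⟩ := exists_eq_teichmuller_add w
    obtain ⟨l', hll'⟩ : ∃ l', l' + p ^ f = l := ⟨l - p ^ f, Nat.sub_add_cancel (by omega)⟩
    obtain ⟨a₀, c, hc, hgc⟩ := descend_rootRing h hγ hg hll'.le (w.coeff 0).2
    have hmem := rootRing_le_awayIn (p := p) h γ t l'
    have hll : l' ≤ l := by omega
    have hsub : rootRing (p := p) T ((t : K) ^ l / γ) ≤
        rootRing (p := p) T ((t : K) ^ l' / γ) := by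
      rintro a ⟨i, hi⟩
      refine ⟨i, (Subring.closure_le.2 ?_) hi⟩
      rw [Set.insert_subset_iff]
      refine ⟨?_, fun y hy => Subring.subset_closure (Set.mem_insert_of_mem _ hy)⟩
      obtain ⟨k, rfl⟩ := Nat.exists_eq_add_of_le hll
      rw [pow_add, mul_comm, mul_div_assoc]
      exact Subring.mul_mem _ (Subring.subset_closure (Set.mem_insert_of_mem _ (T.pow_mem t.2 k)))
        (Subring.subset_closure (Set.mem_insert _ _))
    have : PerfectRing (rootRing (p := p) T ((t : K) ^ l' / γ)) p := rootRing_perfect T _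
    obtain ⟨y, hy⟩ := split_step (p := p)
      (Subring.inclusion (le_rootRing (p := p) T ((t : K) ^ l' / γ)) g)
      (Subring.inclusion (le_rootRing (p := p) T ((t : K) ^ l' / γ)) a₀)
      (Subring.inclusion (le_rootRing (p := p) T ((t : K) ^ l' / γ)) t) ⟨c, hc⟩ (wIncl hsub w)
      (Subtype.ext (by simpa [wIncl, map_coeff] using hgc))
    -- `[g] w ≡ [a₀] + p (y + [c])` modulo `p - [t]`
    obtain ⟨w₀, hw₀⟩ := ih l' (by omega) (y + (WittVector.teichmuller p) ⟨c, hc⟩)
    refine ⟨(WittVector.teichmuller p) (g ^ n * a₀) + (p : WittVector p T) * w₀, ?_⟩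
    obtain ⟨u, v, huv⟩ := mem_tiltI.1 hw₀
    refine mem_tiltI.2 ⟨(p : WittVector p (awayIn T γ)) * u -
      (WittVector.teichmuller p) (Subring.inclusion (le_awayIn T γ) (g ^ n)) *
        (WittVector.teichmuller p) ⟨c, hmem hc⟩, v, ?_⟩
    have key := congrArg (wIncl hmem) hy
    rw [map_mul, map_natCast, map_sub, map_sub, map_mul, map_mul, wIncl_teich, wIncl_teich,
      wIncl_teich, wIncl_teich, wIncl_comp, incl_incl, incl_incl, incl_incl, incl_mk] at key
    rw [map_add (wIncl (rootRing_le_awayIn h γ t l')), wIncl_teich, incl_mk] at huv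
    rw [pow_succ g n, map_mul (Subring.inclusion (le_awayIn T γ)), map_mul (WittVector.teichmuller p), map_add (wIncl (le_awayIn T γ)),
      map_mul (wIncl (le_awayIn T γ)), wIncl_teich, map_natCast,
      map_mul (Subring.inclusion (le_awayIn T γ)), map_mul (WittVector.teichmuller p)]
    exact step_identity key huv

end Vale.Agent.P202.Mixed.Extend
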