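import Vale.Agent.P202.Mixed.Extend.Basic
import Vale.Agent.P202.Mixed.Field.Local
import Vale.Agent.P202.Mixed.Field.Sub
import Vale.Agent.P202.Mixed.Lattice.Scalar

/-!
# P202 mixed characteristic: values of the evaluation at a valuation extending the order

The valuation ring of an `OrdVal` and the behaviour there of an evaluation
`φ : W(k)[[X]] → W(T0)` with `φ X = [X]`.
-/

noncomputable section

namespace Vale.Agent.P202.Mixed.Extend

open WittVector IsLocalRing

universe u

variable {p : ℕ} [Fact p.Prime] {k : Type u} [_root_.Field k] {d : ℕ}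

/-- The valuation ring of a valuation extending the order. -/
def ordRingOf (w : Field.OrdVal k d) : ValuationSubring (Field.Kbar k d) where
  carrier := {x | 0 ≤ w.v x}
  mul_mem' {x y} hx hy := by
    show 0 ≤ w.v (x * y)
    rw [w.v.map_mul]; exact add_nonneg hx hy
  one_mem' := by
    show 0 ≤ w.v 1
    rw [w.v.map_one]
  add_mem' {x y} hx hy := le_trans (le_min hx hy) (w.v.map_add x y)
  zero_mem' := by
    show 0 ≤ w.v 0
    rw [w.v.map_zero]; exact le_top
  neg_mem' {x} hx := by
    show 0 ≤ w.v (-x)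
    rw [w.v.map_neg]; exact hx
  mem_or_inv_mem' x := by
    rcases le_total 0 (w.v x) with h | h
    · exact .inl h
    · by_cases hx : x = 0
      · exact .inl (show 0 ≤ w.v x by rw [hx, w.v.map_zero]; exact le_top)
      refine .inr (show 0 ≤ w.v x⁻¹ from ?_)
      by_contra h'
      rw [not_le] at h'
      have h1 : w.v x + w.v x⁻¹ = 0 := by rw [← w.v.map_mul, mul_inv_cancel₀ hx, w.v.map_one]
      exact absurd h1 (ne_of_lt ((add_le_of_nonpos_left h).trans_lt h'))

theorem mem_ordRingOf {w : Field.OrdVal k d} {x : Field.Kbar k d} :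
    x ∈ ordRingOf w ↔ 0 ≤ w.v x := Iff.rfl

/-- The valuation of the ring and the additive valuation order elements oppositely. -/
theorem le_of_valuation_le {w : Field.OrdVal k d} {a b : Field.Kbar k d}
    (h : (ordRingOf w).valuation a ≤ (ordRingOf w).valuation b) : w.v b ≤ w.v a := by
  by_cases hb : b = 0
  · have ha : a = 0 := by
      rw [hb, map_zero, le_zero_iff] at h
      exact (Valuation.zero_iff _).1 h
    rw [ha, hb]
  have h1 : a / b ∈ ordRingOf w := by
    rw [← ValuationSubring.valuation_le_one_iff, map_div₀,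
      div_le_one₀ ((Valuation.pos_iff _).2 hb)]
    exact h
  have h2 : w.v a = w.v (a / b) + w.v b := by rw [← w.v.map_mul, div_mul_cancel₀ _ hb]
  rw [h2]
  exact le_add_of_nonneg_left h1

/-- An element at least as large in value is a multiple. -/
theorem exists_mul_of_le {w : Field.OrdVal k d} {a b : ordRingOf w}
    (h : w.v (b : Field.Kbar k d) ≤ w.v (a : Field.Kbar k d)) : ∃ c, a = b * c := by
  by_cases hb : (b : Field.Kbar k d) = 0
  · refine ⟨1, Subtype.ext ?_⟩
    rw [hb, w.v.map_zero, top_le_iff, AddValuation.top_iff] at h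
    simp [h, hb]
  refine ⟨⟨(a : Field.Kbar k d) / b, ?_⟩, Subtype.ext ?_⟩
  · rw [mem_ordRingOf]
    by_contra h'
    rw [not_le] at h'
    have h1 : w.v (a : Field.Kbar k d) = w.v ((a : Field.Kbar k d) / b) + w.v (b : Field.Kbar k d) := by
      rw [← w.v.map_mul, div_mul_cancel₀ _ hb]
    have h2 := WithTop.add_lt_add_right ((AddValuation.ne_top_iff w.v).2 hb) h'
    rw [zero_add, ← h1] at h2
    exact not_lt.2 h h2
  · change (a : Field.Kbar k d) = b * (a / b)
    field_simp

theorem isUnit_of_value_zero {w : Field.OrdVal k d} {a : ordRingOf w}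
    (h : w.v (a : Field.Kbar k d) = 0) : IsUnit a := by
  obtain ⟨c, hc⟩ := exists_mul_of_le (a := (1 : ordRingOf w)) (b := a) (by
    rw [h]
    show 0 ≤ w.v 1
    rw [w.v.map_one])
  exact .of_mul_eq_one c hc.symm

/-- `T0` inside the valuation ring. -/
def toV (w : Field.OrdVal k d) : Field.T0 k d →+* ordRingOf w where
  toFun a := ⟨(a : Field.Kbar k d), w.nonneg a⟩
  map_one' := Subtype.ext rfl
  map_zero' := Subtype.ext rfl
  map_add' _ _ := Subtype.ext rfl
  map_mul' _ _ := Subtype.ext rfl

theorem coe_toV (w : Field.OrdVal k d) (a : Field.T0 k d) :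
    ((toV w a : ordRingOf w) : Field.Kbar k d) = (a : Field.Kbar k d) := rfl

theorem value_algebraMap_ge (w : Field.OrdVal k d) {f : Field.Ser k d} {m : ℕ}
    (h : (m : ℕ∞) ≤ f.order) :
    ((m : ℝ) : WithTop ℝ) ≤ w.v (algebraMap (Field.Ser k d) (Field.Kbar k d) f) := by
  by_cases hf : f = 0
  · rw [hf, map_zero, w.v.map_zero]; exact le_top
  rw [w.eq_ord f hf]
  rw [Field.order_eq_ord hf] at h
  exact_mod_cast h

theorem value_X (w : Field.OrdVal k d) (a : Fin (d + 1)) :
    w.v (algebraMap (Field.Ser k d) (Field.Kbar k d) (MvPowerSeries.X a)) = ((1 : ℝ) : WithTop ℝ) := by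
  classical
  have hne : (MvPowerSeries.X a : Field.Ser k d) ≠ 0 := fun h => by
    simpa [MvPowerSeries.X, MvPowerSeries.coeff_monomial] using
      congrArg (MvPowerSeries.coeff (Finsupp.single a 1)) h
  rw [w.eq_ord _ hne, Field.ord,
    MvPowerSeries.order_eq_nat (n := 1) |>.2 ⟨⟨Finsupp.single a 1, by
      simp [MvPowerSeries.X], by simp⟩, fun e he => by
      rw [MvPowerSeries.X, MvPowerSeries.coeff_monomial, if_neg]
      rintro rfl
      simp at he⟩]
  simp

variable (p) in
/-- The image of the variables. -/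
abbrev xT (a : Fin (d + 1)) : Field.T0 k d :=
  algebraMap (Field.Ser k d) (Field.T0 k d) (MvPowerSeries.X a)

variable (p k d) in
/-- An evaluation of power series over the Witt vectors at the Teichmüller representatives of the
variables, constant on the coefficients. -/
structure Evaluation where
  φ : MvPowerSeries (Fin (d + 1)) (WittVector p k) →+* WittVector p (Field.T0 k d)
  map_X : ∀ a, φ (MvPowerSeries.X a) =
    (WittVector.teichmuller p) (algebraMap (Field.Ser k d) (Field.T0 k d) (MvPowerSeries.X a))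
  map_C : ∀ c, (φ (MvPowerSeries.C c)).coeff 0 =
    algebraMap (Field.Ser k d) (Field.T0 k d) (MvPowerSeries.C (c.coeff 0))

variable (E : Evaluation p k d)

/-- The evaluation in a valuation ring. -/
def Evaluation.inV (w : Field.OrdVal k d) :
    MvPowerSeries (Fin (d + 1)) (WittVector p k) →+* WittVector p (ordRingOf w) :=
  (WittVector.map (toV w)).comp E.φ

/-- The first variable in the valuation ring. -/
def x0 (w : Field.OrdVal k d) : ordRingOf w :=
  toV w (algebraMap (Field.Ser k d) (Field.T0 k d) (MvPowerSeries.X 0))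

theorem value_x0_pow (w : Field.OrdVal k d) (m : ℕ) :
    w.v ((x0 w ^ m : ordRingOf w) : Field.Kbar k d) = ((m : ℝ) : WithTop ℝ) := by
  rw [SubmonoidClass.coe_pow, w.v.map_pow, x0, coe_toV, Subalgebra.coe_algebraMap, value_X,
    ← WithTop.coe_nsmul, nsmul_eq_mul, mul_one]

theorem map_spanX_le (w : Field.OrdVal k d) (m : ℕ) :
    ((Ideal.span (Set.range (MvPowerSeries.X :
      Fin (d + 1) → MvPowerSeries (Fin (d + 1)) (WittVector p k)))) ^ m).map (E.inV w) ≤
    Ideal.span {(WittVector.teichmuller p) (x0 w ^ m)} := by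
  rw [Ideal.map_pow, map_pow, ← Ideal.span_singleton_pow]
  refine Ideal.pow_right_mono ?_ m
  rw [Ideal.map_span, Ideal.span_le]
  rintro _ ⟨_, ⟨a, rfl⟩, rfl⟩
  rw [SetLike.mem_coe, Ideal.mem_span_singleton, Evaluation.inV, RingHom.comp_apply, E.map_X,
    map_teichmuller]
  refine map_dvd (WittVector.teichmuller p) ?_
  obtain ⟨c, hc⟩ := exists_mul_of_le (a := toV w (xT a)) (b := x0 w) (by
    rw [coe_toV, x0, coe_toV, Subalgebra.coe_algebraMap, Subalgebra.coe_algebraMap, value_X,
      value_X])
  exact ⟨c, hc⟩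

/-- The residue of the evaluation is the reduction of the series. -/
theorem Evaluation.coeff_zero (π : MvPowerSeries (Fin (d + 1)) (WittVector p k)) :
    (E.φ π).coeff 0 = algebraMap (Field.Ser k d) (Field.T0 k d)
      (MvPowerSeries.map WittVector.constantCoeff π) := by
  classical
  obtain ⟨w⟩ := Field.ordVal_exists k d
  let φ₁ := (WittVector.constantCoeff (p := p)).comp E.φ
  let φ₂ := (algebraMap (Field.Ser k d) (Field.T0 k d)).comp
    (MvPowerSeries.map (WittVector.constantCoeff (p := p) (R := k)))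
  have hpoly : φ₁.comp MvPolynomial.coeToMvPowerSeries.ringHom =
      φ₂.comp MvPolynomial.coeToMvPowerSeries.ringHom := by
    refine MvPolynomial.ringHom_ext (fun c => ?_) fun a => ?_
    · simpa [φ₁, φ₂, MvPowerSeries.map_C] using E.map_C c
    · simp [φ₁, φ₂, E.map_X, MvPowerSeries.map_X]
  suffices h : ∀ m : ℕ, ((m : ℝ) : WithTop ℝ) ≤
      w.v ((φ₁ π - φ₂ π : Field.T0 k d) : Field.Kbar k d) by
    have h0 : w.v ((φ₁ π - φ₂ π : Field.T0 k d) : Field.Kbar k d) = ⊤ := by
      by_contra hne
      obtain ⟨q, hq⟩ := WithTop.ne_top_iff_exists.1 hne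
      obtain ⟨m, hm⟩ := exists_nat_gt q
      have := h m
      rw [← hq, WithTop.coe_le_coe] at this
      linarith
    exact sub_eq_zero.1 (Subtype.ext ((AddValuation.top_iff _).1 h0))
  intro m
  set π₀ := MvPowerSeries.truncTotal ((d + 1) * m + 1) π
  have hmem : π - (π₀ : MvPowerSeries (Fin (d + 1)) (WittVector p k)) ∈
      Ideal.span (Set.range (MvPowerSeries.X :
        Fin (d + 1) → MvPowerSeries (Fin (d + 1)) (WittVector p k))) ^ m := by
    refine (Ideal.span_le.2 ?_) (Lattice.mem_span_X_pow (M := m) fun α hα => ?_)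
    · rintro _ ⟨a, rfl⟩
      exact Ideal.pow_mem_pow (Ideal.subset_span (Set.mem_range_self a)) m
    · rw [map_sub, MvPolynomial.coeff_coe, MvPowerSeries.coeff_truncTotal, sub_self]
      rw [Finsupp.degree_eq_sum]
      have := Finset.sum_le_card_nsmul Finset.univ (fun a => α a) m
        fun a _ => (Lattice.mem_box.1 hα a).le
      simp only [Finset.card_univ, Fintype.card_fin, smul_eq_mul] at this
      omega
  have h1 : φ₁ π - φ₂ π = φ₁ (π - π₀) - φ₂ (π - π₀) := by
    have := RingHom.congr_fun hpoly π₀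
    simp only [RingHom.comp_apply, MvPolynomial.coeToMvPowerSeries.ringHom_apply] at this
    rw [map_sub, map_sub, this]
    ring
  rw [h1, Subalgebra.coe_sub]
  refine le_trans (le_min ?_ ?_) (w.v.map_sub _ _)
  · obtain ⟨z, hz⟩ := Ideal.mem_span_singleton.1 (map_spanX_le E w m (Ideal.mem_map_of_mem _ hmem))
    have h2 := congrArg (fun y : WittVector p (ordRingOf w) => ((y.coeff 0 : ordRingOf w) :
      Field.Kbar k d)) hz
    simp only [Evaluation.inV, RingHom.comp_apply, WittVector.map_coeff, coe_toV,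
      WittVector.mul_coeff_zero, teichmuller_coeff_zero, MulMemClass.coe_mul] at h2
    show _ ≤ w.v ((((E.φ (π - π₀)).coeff 0) : Field.T0 k d) : Field.Kbar k d)
    rw [h2, w.v.map_mul, value_x0_pow]
    exact le_add_of_nonneg_right ((z.coeff 0).2)
  · refine value_algebraMap_ge w ?_
    have hm' := Ideal.mem_map_of_mem (MvPowerSeries.map (WittVector.constantCoeff (p := p) (R := k))) hmem
    rw [Ideal.map_pow, Ideal.map_span, ← Set.range_comp] at hm'
    refine MvPowerSeries.nat_le_order fun e he => ?_
    refine coeff_eq_zero_of_mem_maximalIdeal_pow ?_ e he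
    rw [maximalIdeal_mvPowerSeries]
    rwa [show (⇑(MvPowerSeries.map (WittVector.constantCoeff (p := p) (R := k))) ∘
      (MvPowerSeries.X : Fin (d + 1) → MvPowerSeries (Fin (d + 1)) (WittVector p k))) =
        MvPowerSeries.X from funext fun a => MvPowerSeries.map_X _ a] at hm' 

end Vale.Agent.P202.Mixed.Extend
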